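import Vale.Agent.P141.H97.Dual

/-!
# The truncated bilinear Hilbert form at (3,3,3), uniformly in the slopes
-/

namespace Vale.Agent.P141.H115

open MeasureTheory Set Filter Topology
open scoped ENNReal ComplexConjugate
open Vale.Agent.P075.R (kern full)
open Vale.Agent.P141.H97

/-- the bound for functions with compact support; the constant does not depend on the slopes -/
theorem bht_cs :
    ∃ C : ℝ, 0 ≤ C ∧ ∀ α₁ α₂ α₃ : ℝ, α₁ ≠ α₂ → α₂ ≠ α₃ → ∀ g₁ g₂ g₃ : ℝ → ℂ,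
      Measurable g₁ → Measurable g₂ → Measurable g₃ →
      MemLp g₁ 3 volume → MemLp g₂ 3 volume → MemLp g₃ 3 volume →
      (∃ M : ℝ, ∀ u, M < |u| → g₂ u = 0) → ∀ ε R : ℝ, 0 < ε → ε < R →
        ‖∫ p, bk ε R α₁ α₂ α₃ g₁ g₂ g₃ p‖ ≤ C * ((eLpNorm g₁ 3 volume).toReal *
          (eLpNorm g₂ 3 volume).toReal * (eLpNorm g₃ 3 volume).toReal) := by
  obtain ⟨C₀, hC₀⟩ := full
  refine ⟨|C₀| * 4 ^ ((1 : ℝ) / 3), by positivity, ?_⟩
  intro α₁ α₂ α₃ h12 h23 g₁ g₂ g₃ m₁ m₂ m₃ l₁ l₂ l₃ hM ε R hε hR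
  have hδ : 0 < |α₂ - α₁| := abs_pos.2 (sub_ne_zero.2 (Ne.symm h12))
  have hδ' : α₁ - α₂ ≠ 0 := sub_ne_zero.2 h12
  have hδ'' : α₂ - α₁ ≠ 0 := sub_ne_zero.2 (Ne.symm h12)
  have hγ : 0 < |α₂ - α₃| := abs_pos.2 (sub_ne_zero.2 h23)
  have hγ' : α₂ - α₃ ≠ 0 := sub_ne_zero.2 h23
  have hsymm : |α₁ - α₂| = |α₂ - α₁| := abs_sub_comm _ _
  have hsymm' : |α₃ - α₂| = |α₂ - α₃| := abs_sub_comm _ _
  obtain ⟨M, hM⟩ := hM
  set N : ℝ := max (M / |α₂ - α₃|) 1 with hN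
  have hN1 : 1 ≤ N := le_max_right _ _
  have hN0 : 0 ≤ N := by linarith
  have hNpos : 0 < N := by linarith
  have hMN : M ≤ |α₂ - α₃| * N := by
    have h1 : M / |α₂ - α₃| ≤ N := le_max_left _ _
    rw [div_le_iff₀ hγ] at h1
    linarith
  set K : ℝ := N * (2 * |α₂ - α₃| / |α₂ - α₁|) with hK
  have hK0 : 0 ≤ K := by positivity
  have hKK : (M + |α₃ - α₂| * N) / |α₂ - α₁| ≤ K := by
    rw [hK, ← mul_div_assoc, hsymm']
    apply div_le_div_of_nonneg_right _ hδ.le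
    nlinarith
  set G₀ : ℝ × ℝ → ℂ := fun p => g₁ ((α₂ - α₁) * p.1 + (α₃ - α₁) * p.2) *
    (Icc 0 N).indicator 1 p.2 with hG₀
  set G₁ : ℝ × ℝ → ℂ := fun p => g₂ ((α₁ - α₂) * p.2 + (α₃ - α₂) * p.1) *
    (Icc 0 N).indicator 1 p.1 with hG₁
  set G₂ : ℝ × ℝ → ℂ := fun p => g₃ ((α₂ - α₃) * p.2 + (α₁ - α₃) * p.1) *
    (Icc (-K) K).indicator 1 p.1 with hG₂
  have v1 : volume (Icc 0 N) = ENNReal.ofReal N := by rw [Real.volume_Icc, sub_zero]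
  have v2 : volume (Icc (-K) K) = ENNReal.ofReal (2 * K) := by
    rw [Real.volume_Icc]; congr 1; ring
  have n0 : eLpNorm G₀ 3 volume = ENNReal.ofReal ((N / |α₂ - α₁|) ^ ((1 : ℝ) / 3)) *
      eLpNorm g₁ 3 volume := nrm2 _ _ hδ'' _ measurableSet_Icc N hN0 v1 g₁ m₁
  have n1 : eLpNorm G₁ 3 volume = ENNReal.ofReal ((N / |α₁ - α₂|) ^ ((1 : ℝ) / 3)) *
      eLpNorm g₂ 3 volume := nrm1 _ _ hδ' _ measurableSet_Icc N hN0 v1 g₂ m₂
  have n2 : eLpNorm G₂ 3 volume = ENNReal.ofReal ((2 * K / |α₂ - α₃|) ^ ((1 : ℝ) / 3)) *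
      eLpNorm g₃ 3 volume := nrm1 _ _ hγ' _ measurableSet_Icc (2 * K) (by positivity) v2 g₃ m₃
  have hi1 : Measurable ((Icc 0 N).indicator (1 : ℝ → ℂ)) :=
    measurable_one.indicator measurableSet_Icc
  have hi2 : Measurable ((Icc (-K) K).indicator (1 : ℝ → ℂ)) :=
    measurable_one.indicator measurableSet_Icc
  have mG0 : Measurable G₀ :=
    (m₁.comp ((measurable_const.mul measurable_fst).add (measurable_const.mul measurable_snd))).mul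
      (hi1.comp measurable_snd)
  have mG1 : Measurable G₁ :=
    (m₂.comp ((measurable_const.mul measurable_snd).add (measurable_const.mul measurable_fst))).mul
      (hi1.comp measurable_fst)
  have mG2 : Measurable G₂ :=
    (m₃.comp ((measurable_const.mul measurable_snd).add (measurable_const.mul measurable_fst))).mul
      (hi2.comp measurable_fst)
  have L0 : MemLp G₀ 3 volume := ⟨mG0.aestronglyMeasurable, by
    rw [n0]; exact ENNReal.mul_lt_top ENNReal.ofReal_lt_top l₁.2⟩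
  have L1 : MemLp G₁ 3 volume := ⟨mG1.aestronglyMeasurable, by
    rw [n1]; exact ENNReal.mul_lt_top ENNReal.ofReal_lt_top l₂.2⟩
  have L2 : MemLp G₂ 3 volume := ⟨mG2.aestronglyMeasurable, by
    rw [n2]; exact ENNReal.mul_lt_top ENNReal.ofReal_lt_top l₃.2⟩
  obtain ⟨hI, hB⟩ := hC₀ G₀ G₁ G₂ L0 L1 L2 ε R hε hR
  have hform : ∫ x, kern ε R G₀ G₁ G₂ x
      = (N * |α₂ - α₁|⁻¹) • ∫ p, bk ε R α₁ α₂ α₃ g₁ g₂ g₃ p := by
    have h1 : ∫ x, kern ε R G₀ G₁ G₂ x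
        = ∫ w : ℝ × ℝ × ℝ, kern ε R G₀ G₁ G₂ (w.2.1, w.1, w.2.2) :=
      (mp_mid.integral_comp mid_emb _).symm
    have hI' : Integrable (fun w : ℝ × ℝ × ℝ => kern ε R G₀ G₁ G₂ (w.2.1, w.1, w.2.2)) volume :=
      (mp_mid.integrable_comp_emb mid_emb).2 hI
    rw [h1, Measure.volume_eq_prod, integral_prod _ hI']
    have h2 : ∀ b : ℝ, ∫ q : ℝ × ℝ, kern ε R G₀ G₁ G₂ (q.1, b, q.2)
        = (Icc 0 N).indicator (fun _ => |α₂ - α₁|⁻¹ • ∫ p, bk ε R α₁ α₂ α₃ g₁ g₂ g₃ p) b := by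
      intro b
      have h3 : ∀ q : ℝ × ℝ, kern ε R G₀ G₁ G₂ (q.1, b, q.2) = (Icc 0 N).indicator 1 b *
          bk ε R α₁ α₂ α₃ g₁ g₂ g₃ (α₂ * q.1 + α₁ * q.2 + α₃ * b, 1 * q.1 + 1 * q.2 + b) :=
        fun q => kern_eq_bk h12 hM hN0 hKK q.1 b q.2
      simp only [h3]
      rw [integral_const_mul, lin2 α₂ α₁ 1 1 (by simpa using hδ'') (α₃ * b) b]
      by_cases hb : b ∈ Icc 0 N
      · rw [indicator_of_mem hb, indicator_of_mem hb]
        simp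
      · rw [indicator_of_notMem hb, indicator_of_notMem hb, zero_mul]
    simp only [h2]
    rw [integral_indicator measurableSet_Icc, setIntegral_const, measureReal_def, v1,
      ENNReal.toReal_ofReal hN0, smul_smul]
  rw [hform, norm_smul, n0, n1, n2, ENNReal.toReal_mul, ENNReal.toReal_mul, ENNReal.toReal_mul,
    ENNReal.toReal_ofReal (by positivity), ENNReal.toReal_ofReal (by positivity),
    ENNReal.toReal_ofReal (by positivity), Real.norm_of_nonneg (by positivity)] at hB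
  set X := ‖∫ p, bk ε R α₁ α₂ α₃ g₁ g₂ g₃ p‖ with hX
  set a₁ := (eLpNorm g₁ 3 volume).toReal
  set a₂ := (eLpNorm g₂ 3 volume).toReal
  set a₃ := (eLpNorm g₃ 3 volume).toReal
  have ha1 : 0 ≤ a₁ := ENNReal.toReal_nonneg
  have ha2 : 0 ≤ a₂ := ENNReal.toReal_nonneg
  have ha3 : 0 ≤ a₃ := ENNReal.toReal_nonneg
  have hNδ : 0 ≤ N / |α₂ - α₁| := by positivity
  set ν : ℝ := (N / |α₂ - α₁|) ^ ((1 : ℝ) / 3) with hν
  have hν0 : 0 ≤ ν := by positivity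
  have hν3 : ν ^ 3 = N / |α₂ - α₁| := by
    rw [hν, ← Real.rpow_natCast, ← Real.rpow_mul hNδ]; norm_num
  have e2 : (N / |α₁ - α₂|) ^ ((1 : ℝ) / 3) = ν := by rw [hν, hsymm]
  have e3 : (2 * K / |α₂ - α₃|) ^ ((1 : ℝ) / 3) = 4 ^ ((1 : ℝ) / 3) * ν := by
    rw [hν, ← Real.mul_rpow (by norm_num) hNδ]
    congr 1
    rw [hK]
    field_simp
    ring
  rw [e2, e3] at hB
  set κ : ℝ := (4 : ℝ) ^ ((1 : ℝ) / 3) with hκ
  have hκ0 : 0 ≤ κ := by positivity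
  have h5 : (N / |α₂ - α₁|) * X ≤ (N / |α₂ - α₁|) * (|C₀| * κ * (a₁ * a₂ * a₃)) := by
    calc (N / |α₂ - α₁|) * X = N * |α₂ - α₁|⁻¹ * X := by rw [div_eq_mul_inv]
      _ ≤ C₀ * (ν * a₁ * (ν * a₂) * (κ * ν * a₃)) := hB
      _ ≤ |C₀| * (ν * a₁ * (ν * a₂) * (κ * ν * a₃)) := by
          apply mul_le_mul_of_nonneg_right (le_abs_self _)
          positivity
      _ = ν ^ 3 * (|C₀| * κ * (a₁ * a₂ * a₃)) := by ring
      _ = _ := by rw [hν3]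
  exact le_of_mul_le_mul_left h5 (by positivity)

/-- bounded integrable functions, two slope conditions -/
theorem bht_ne :
    ∃ C : ℝ, 0 ≤ C ∧ ∀ α₁ α₂ α₃ : ℝ, α₁ ≠ α₂ → α₂ ≠ α₃ → ∀ g₁ g₂ g₃ : ℝ → ℂ,
      Nice g₁ → Nice g₂ → Nice g₃ → ∀ ε R : ℝ, 0 < ε → ε < R →
        ‖∫ p, bk ε R α₁ α₂ α₃ g₁ g₂ g₃ p‖ ≤ C * ((eLpNorm g₁ 3 volume).toReal *
          (eLpNorm g₂ 3 volume).toReal * (eLpNorm g₃ 3 volume).toReal) := by
  obtain ⟨C, hC0, hC'⟩ := bht_cs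
  refine ⟨C, hC0, fun α₁ α₂ α₃ h12 h23 g₁ g₂ g₃ h₁ h₂ h₃ ε R hε hR => ?_⟩
  have hC := hC' α₁ α₂ α₃ h12 h23
  have l₁ := h₁.memLp (p := 3) (by norm_num) (by norm_num)
  have l₂ := h₂.memLp (p := 3) (by norm_num) (by norm_num)
  have l₃ := h₃.memLp (p := 3) (by norm_num) (by norm_num)
  set t : ℕ → ℝ → ℂ := fun n => (Icc (-(n : ℝ)) n).indicator g₂ with ht
  have hbd : ∀ n, ‖∫ p, bk ε R α₁ α₂ α₃ g₁ (t n) g₃ p‖ ≤ C * ((eLpNorm g₁ 3 volume).toReal *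
      (eLpNorm g₂ 3 volume).toReal * (eLpNorm g₃ 3 volume).toReal) := by
    intro n
    have hle : eLpNorm (t n) 3 volume ≤ eLpNorm g₂ 3 volume := eLpNorm_indicator_le _
    have hl : MemLp (t n) 3 volume := l₂.indicator measurableSet_Icc
    refine (hC g₁ (t n) g₃ h₁.meas (h₂.meas.indicator measurableSet_Icc) h₃.meas l₁ hl l₃
      ⟨n, fun u hu => indicator_of_notMem (fun hc => ?_) _⟩ ε R hε hR).trans ?_
    · exact absurd (abs_le.2 hc) (not_le.2 hu)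
    · have := ENNReal.toReal_mono l₂.2.ne hle
      gcongr
  have hlim : Tendsto (fun n => ∫ p, bk ε R α₁ α₂ α₃ g₁ (t n) g₃ p) atTop
      (𝓝 (∫ p, bk ε R α₁ α₂ α₃ g₁ g₂ g₃ p)) := by
    refine tendsto_integral_of_dominated_convergence
      (fun p => ‖bk ε R α₁ α₂ α₃ g₁ g₂ g₃ p‖) (fun n =>
        (bk_meas h₁.meas (h₂.meas.indicator measurableSet_Icc) h₃.meas).aestronglyMeasurable)
      (bk_int hε h₁ h₂ h₃).norm (fun n => ae_of_all _ fun p => ?_) (ae_of_all _ fun p => ?_)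
    · unfold bk
      split_ifs
      · rw [norm_div, norm_mul, norm_mul, norm_div, norm_mul, norm_mul]
        have : ‖t n (p.1 - α₂ * p.2)‖ ≤ ‖g₂ (p.1 - α₂ * p.2)‖ := norm_indicator_le_norm_self _ _
        gcongr
      · simp
    · apply tendsto_const_nhds.congr'
      obtain ⟨m, hm⟩ := exists_nat_ge |p.1 - α₂ * p.2|
      filter_upwards [eventually_ge_atTop m] with n hn
      have h5 : |p.1 - α₂ * p.2| ≤ (n : ℝ) := hm.trans (by exact_mod_cast hn)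
      have h4 : t n (p.1 - α₂ * p.2) = g₂ (p.1 - α₂ * p.2) := by
        rw [ht]
        exact indicator_of_mem (show p.1 - α₂ * p.2 ∈ Icc (-(n : ℝ)) n from abs_le.1 h5) g₂
      unfold bk
      rw [h4]
  exact le_of_tendsto hlim.norm (Eventually.of_forall hbd)

theorem bk_12 (ε R α₁ α₂ α₃ : ℝ) (g₁ g₂ g₃ : ℝ → ℂ) :
    bk ε R α₁ α₂ α₃ g₁ g₂ g₃ = bk ε R α₂ α₁ α₃ g₂ g₁ g₃ := by
  funext p
  unfold bk
  split_ifs
  · ring
  · rfl

theorem bk_23 (ε R α₁ α₂ α₃ : ℝ) (g₁ g₂ g₃ : ℝ → ℂ) :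
    bk ε R α₁ α₂ α₃ g₁ g₂ g₃ = bk ε R α₁ α₃ α₂ g₁ g₃ g₂ := by
  funext p
  unfold bk
  split_ifs
  · ring
  · rfl

/-- reflection of the second variable -/
theorem refl_mp : MeasurePreserving (fun p : ℝ × ℝ => (p.1, -p.2)) volume volume :=
  (MeasurePreserving.id (volume : Measure ℝ)).prod (Measure.measurePreserving_neg volume)

theorem refl_emb : MeasurableEmbedding (fun p : ℝ × ℝ => (p.1, -p.2)) := by
  let e : ℝ × ℝ ≃ᵐ ℝ × ℝ :=
    { toFun := fun p => (p.1, -p.2)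
      invFun := fun p => (p.1, -p.2)
      left_inv := fun p => by ext <;> simp
      right_inv := fun p => by ext <;> simp
      measurable_toFun := by
        show Measurable fun p : ℝ × ℝ => (p.1, -p.2)
        fun_prop
      measurable_invFun := by
        show Measurable fun p : ℝ × ℝ => (p.1, -p.2)
        fun_prop }
  exact e.measurableEmbedding

/-- equal slopes: the form vanishes -/
theorem bk_eq_zero (ε R α : ℝ) (g₁ g₂ g₃ : ℝ → ℂ) :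
    ∫ p, bk ε R α α α g₁ g₂ g₃ p = 0 := by
  have h1 : ∫ p, bk ε R α α α g₁ g₂ g₃ p = ∫ p, bk ε R 0 0 0 g₁ g₂ g₃ p := by
    rw [← (cshear α).integral_comp (cshear_emb α)]
    congr 1
    funext p
    unfold bk
    have e : p.1 + α * p.2 - α * p.2 = p.1 - 0 * p.2 := by ring
    simp only [e]
  have h2 : ∫ p, bk ε R 0 0 0 g₁ g₂ g₃ p = - ∫ p, bk ε R 0 0 0 g₁ g₂ g₃ p := by
    conv_lhs => rw [← refl_mp.integral_comp refl_emb]
    rw [← integral_neg]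
    congr 1
    funext p
    unfold bk
    simp only [abs_neg, zero_mul, sub_zero]
    split_ifs
    · push_cast
      rw [div_neg]
    · simp
  rw [h1]
  have h3 : (2 : ℂ) * ∫ p, bk ε R 0 0 0 g₁ g₂ g₃ p = 0 := by
    linear_combination h2
  simpa using h3

/-- **the truncated bilinear Hilbert form, uniformly in all slopes** -/
theorem bht :
    ∃ C : ℝ, 0 ≤ C ∧ ∀ α₁ α₂ α₃ : ℝ, ∀ g₁ g₂ g₃ : ℝ → ℂ,
      Nice g₁ → Nice g₂ → Nice g₃ → ∀ ε R : ℝ, 0 < ε → ε < R →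
        ‖∫ p, bk ε R α₁ α₂ α₃ g₁ g₂ g₃ p‖ ≤ C * ((eLpNorm g₁ 3 volume).toReal *
          (eLpNorm g₂ 3 volume).toReal * (eLpNorm g₃ 3 volume).toReal) := by
  obtain ⟨C, hC0, hC⟩ := bht_ne
  refine ⟨C, hC0, fun α₁ α₂ α₃ g₁ g₂ g₃ h₁ h₂ h₃ ε R hε hR => ?_⟩
  by_cases h12 : α₁ = α₂
  · by_cases h23 : α₂ = α₃
    · subst h12
      subst h23
      rw [bk_eq_zero, norm_zero]
      positivity
    · rw [bk_23]
      refine (hC α₁ α₃ α₂ (by rw [h12]; exact h23) (Ne.symm h23) g₁ g₃ g₂ h₁ h₃ h₂ ε R hε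
        hR).trans (le_of_eq ?_)
      ring
  · by_cases h23 : α₂ = α₃
    · rw [bk_12]
      refine (hC α₂ α₁ α₃ (Ne.symm h12) (by rw [← h23]; exact h12) g₂ g₁ g₃ h₂ h₁ h₃ ε R hε
        hR).trans (le_of_eq ?_)
      ring
    · exact hC α₁ α₂ α₃ h12 h23 g₁ g₂ g₃ h₁ h₂ h₃ ε R hε hR

end Vale.Agent.P141.H115
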