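import Vale.Agent.P141.H115.Whole

/-!
# The trilinear Hilbert transform itself, when one of the three functions is regular
-/

namespace Vale.Agent.P141.H115

open MeasureTheory Set Filter Topology
open scoped ENNReal ComplexConjugate SchwartzMap
open Vale.Agent.P141.H97

theorem nice_schwartz (f : 𝓢(ℝ, ℂ)) : Nice f where
  meas := f.continuous.measurable
  bdd := by
    obtain ⟨C, hC⟩ := f.decay 0 0
    exact ⟨C, fun x => by simpa using hC.2 x⟩
  int := f.integrable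

theorem TT_23 (ε R α₁ α₂ α₃ : ℝ) (f₁ f₂ f₃ : ℝ → ℂ) :
    TT ε R α₁ α₂ α₃ f₁ f₂ f₃ = TT ε R α₁ α₃ α₂ f₁ f₃ f₂ := by
  funext x
  unfold TT ph FF
  congr 1
  funext t
  ring

theorem TT_rot (ε R α₁ α₂ α₃ : ℝ) (f₁ f₂ f₃ : ℝ → ℂ) :
    TT ε R α₁ α₂ α₃ f₁ f₂ f₃ = TT ε R α₂ α₃ α₁ f₂ f₃ f₁ := by
  funext x
  unfold TT ph FF
  congr 1
  funext t
  ring

/-- passage to the limit in the truncations -/
theorem tht_le (f₁ f₂ f₃ : 𝓢(ℝ, ℂ)) {δ l : ℝ} (hδ : 0 < δ) {X : ℝ≥0∞}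
    (H : ∀ ε R : ℝ, 0 < ε → ε < δ → l < R →
      eLpNorm (TT ε R 1 2 3 f₁ f₂ f₃) (6 / 5) volume ≤ X) :
    eLpNorm (THT f₁ f₂ f₃) (6 / 5) volume ≤ X := by
  set e : ℕ → ℝ := fun n => δ * (1 / ((n : ℝ) + 1)) / 2 with he
  set r : ℕ → ℝ := fun n => |l| + 1 + n with hr
  have he0 : ∀ n, 0 < e n := fun n => by rw [he]; positivity
  have heδ : ∀ n, e n < δ := fun n => by
    have h1 : (1 : ℝ) / ((n : ℝ) + 1) ≤ 1 := by
      rw [div_le_one (by positivity)]; linarith [(Nat.cast_nonneg n : (0 : ℝ) ≤ n)]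
    have h2 : δ * (1 / ((n : ℝ) + 1)) ≤ δ * 1 := by gcongr
    simp only [he]
    linarith
  have hrl : ∀ n, l < r n := fun n => by
    simp only [hr]
    linarith [le_abs_self l, (Nat.cast_nonneg n : (0 : ℝ) ≤ n)]
  have t1 : Tendsto e atTop (𝓝[>] 0) := by
    rw [tendsto_nhdsWithin_iff]
    refine ⟨?_, Eventually.of_forall he0⟩
    have := ((tendsto_one_div_add_atTop_nhds_zero_nat (𝕜 := ℝ)).const_mul δ).div_const 2
    simpa [he] using this
  have t2 : Tendsto r atTop atTop :=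
    tendsto_atTop_add_const_left _ _ tendsto_natCast_atTop_atTop
  have hlim : ∀ᵐ x : ℝ, Tendsto (fun n => TT (e n) (r n) 1 2 3 f₁ f₂ f₃ x) atTop
      (𝓝 (THT f₁ f₂ f₃ x)) := by
    refine ae_of_all _ fun x => ?_
    have h1 := (exists_tendsto_truncTHT f₁ f₂ f₃ x).comp (t1.prodMk t2)
    refine h1.congr fun n => ?_
    show truncTHT f₁ f₂ f₃ (e n) (r n) x = _
    rw [TT_eq]
    rfl
  refine (Lp.eLpNorm_lim_le_liminf_eLpNorm (fun n => (TT_meas (nice_schwartz f₁)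
    (nice_schwartz f₂) (nice_schwartz f₃)).aestronglyMeasurable) _ hlim).trans ?_
  refine liminf_le_of_le (by isBoundedDefault) fun b hb => ?_
  obtain ⟨n, hn⟩ := hb.exists
  exact hn.trans (H (e n) (r n) (he0 n) (heδ n) (hrl n))

/-- **`T` itself at `(3,3,6;6/5)` and permutations: the square root of the logarithm of the
number of oscillations of one of the three functions** -/
theorem tht_regular : ∃ C : ℝ, ∀ f : Fin 3 → 𝓢(ℝ, ℂ), ∀ j : Fin 3, ∀ a l N : ℝ, 0 < l → 2 ≤ N →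
    (∀ x, x ∉ Icc a (a + l) → f j x = 0) →
    (∀ s, eLpNorm (fun x => f j (x - s) - f j x) 6 volume ≤
        ENNReal.ofReal (N / l * |s|) * eLpNorm (f j) 6 volume) →
    eLpNorm (THT (f 0) (f 1) (f 2)) (6 / 5) volume ≤
      ENNReal.ofReal (C * √(Real.log N)) *
        ∏ i, eLpNorm (f i) (if i = j then 6 else 3) volume := by
  obtain ⟨C₀, h₀, H₀⟩ := whole (α₁ := 2) (α₂ := 3) (α₃ := 1) (by norm_num) (by norm_num)
    (by norm_num)
  obtain ⟨C₁, h₁, H₁⟩ := whole (α₁ := 1) (α₂ := 3) (α₃ := 2) (by norm_num) (by norm_num)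
    (by norm_num)
  obtain ⟨C₂, h₂, H₂⟩ := whole (α₁ := 1) (α₂ := 2) (α₃ := 3) (by norm_num) (by norm_num)
    (by norm_num)
  refine ⟨C₀ + C₁ + C₂, fun f j a l N hl hN hs hreg => ?_⟩
  have hδ : 0 < l / N := div_pos hl (by linarith)
  have n := fun i => nice_schwartz (f i)
  have hL := Real.sqrt_nonneg (Real.log N)
  refine tht_le (f 0) (f 1) (f 2) hδ (l := l) fun ε R hε hεδ hR => ?_
  obtain rfl | rfl | rfl : j = 0 ∨ j = 1 ∨ j = 2 := by fin_cases j <;> simp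
  · rw [TT_rot]
    refine (H₀ _ _ _ (n 1) (n 2) (n 0) a l N hl hN hs hreg ε R hε hεδ hR).trans ?_
    refine mul_le_mul' (ENNReal.ofReal_le_ofReal (mul_le_mul_of_nonneg_right (by linarith) hL))
      (le_of_eq ?_)
    rw [Fin.prod_univ_three, if_pos rfl, if_neg (by decide), if_neg (by decide)]
    ring
  · rw [TT_23]
    refine (H₁ _ _ _ (n 0) (n 2) (n 1) a l N hl hN hs hreg ε R hε hεδ hR).trans ?_
    refine mul_le_mul' (ENNReal.ofReal_le_ofReal (mul_le_mul_of_nonneg_right (by linarith) hL))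
      (le_of_eq ?_)
    rw [Fin.prod_univ_three, if_pos rfl, if_neg (by decide), if_neg (by decide)]
    ring
  · refine (H₂ _ _ _ (n 0) (n 1) (n 2) a l N hl hN hs hreg ε R hε hεδ hR).trans ?_
    refine mul_le_mul' (ENNReal.ofReal_le_ofReal (mul_le_mul_of_nonneg_right (by linarith) hL))
      (le_of_eq ?_)
    rw [Fin.prod_univ_three, if_pos rfl, if_neg (by decide), if_neg (by decide)]

end Vale.Agent.P141.H115
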