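import Vale.Agent.P141.H115.Unif

/-!
# Interpolation with different constants, the trivial bound, all tuples of the open simplex
-/

namespace Vale.Agent.P141.H115

open MeasureTheory Set Filter Topology
open scoped ENNReal ComplexConjugate
open Vale.Agent.P141.H97

/-- interpolation between two exponents, with different constants -/
theorem interp2 {ε R : ℝ} (hε : 0 < ε) {b : Fin 4 → ℝ} {A B : ℝ} (hA : 0 ≤ A) (hB : 0 ≤ B)
    {a c : Fin 4 → ℝ}
    (ha : ∀ i, 0 < a i) (hc : ∀ i, 0 < c i) {θ : ℝ} (hθ0 : 0 ≤ θ) (hθ1 : θ ≤ 1)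
    (Ha : ∀ f : Fin 4 → ℝ → ℂ, (∀ i, Simp (f i)) →
      ‖QF ε R b f‖ ≤ A * ∏ i, (NN (f i) (1 / a i)) ^ (a i))
    (Hc : ∀ f : Fin 4 → ℝ → ℂ, (∀ i, Simp (f i)) →
      ‖QF ε R b f‖ ≤ B * ∏ i, (NN (f i) (1 / c i)) ^ (c i))
    {d : Fin 4 → ℝ} (hd : ∀ i, d i = (1 - θ) * a i + θ * c i)
    (f : Fin 4 → ℝ → ℂ) (hf : ∀ i, Simp (f i)) :
    ‖QF ε R b f‖ ≤ A ^ (1 - θ) * B ^ θ * ∏ i, (NN (f i) (1 / d i)) ^ (d i) := by
  have hd0 : ∀ i, 0 < d i := by
    intro i
    rw [hd]
    rcases eq_or_lt_of_le hθ0 with h | h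
    · rw [← h]; have := ha i; linarith
    · have h1 := mul_pos h (hc i)
      have h2 := mul_nonneg (sub_nonneg.2 hθ1) (ha i).le
      linarith
  set lam : Fin 4 → ℝ := fun i => (c i - a i) / d i with hlam
  set l : ℝ × ℝ → ℝ := fun p => ∑ i, lam i * Real.log ‖f i (p.1 - b i * p.2)‖ with hl
  choose K hK0 hK using fun i => (hf i).log
  have hlL : ∀ p, |l p| ≤ ∑ i, |lam i| * K i := by
    intro p
    refine (Finset.abs_sum_le_sum_abs _ _).trans (Finset.sum_le_sum fun i _ => ?_)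
    rw [abs_mul]
    exact mul_le_mul_of_nonneg_left (hK i _) (abs_nonneg _)
  set L : ℝ := ∑ i, |lam i| * K i with hLdef
  have hL0 : 0 ≤ L := (abs_nonneg _).trans (hlL 0)
  have hlm : Measurable l := by
    refine Finset.measurable_sum _ fun i _ => measurable_const.mul (Real.measurable_log.comp ?_)
    exact ((hf i).meas.comp (measurable_fst.sub (measurable_const.mul measurable_snd))).norm
  have hG : Integrable (qf ε R b f) volume := qf_int hε fun i => (hf i).nice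
  set Φ : ℂ → ℂ := fun z => ∫ p, qf ε R b f p * Complex.exp ((z - θ) * (l p : ℝ)) with hΦ
  have hdiff : Differentiable ℂ Φ := diff_int hG hlm hlL θ
  have hΦeq : ∀ z, Φ z = QF ε R b (fun i => pw (f i) (lam i * (z - θ))) := by
    intro z
    unfold QF
    show ∫ p, qf ε R b f p * Complex.exp ((z - θ) * (l p : ℝ)) = _
    congr 1
    funext p
    rw [qf_pw]
  have hw : ∀ (z : ℂ) i, ((lam i : ℂ) * (z - θ)).re = lam i * (z.re - θ) := by
    intro z i
    rw [Complex.re_ofReal_mul, Complex.sub_re, Complex.ofReal_re]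
  have h0 : ∀ z ∈ Complex.re ⁻¹' {(0 : ℝ)}, ‖Φ z‖ ≤ A * ∏ i, (NN (f i) (1 / d i)) ^ (a i) := by
    intro z hz
    rw [hΦeq]
    refine (Ha _ fun i => (hf i).pw _).trans (le_of_eq ?_)
    congr 1
    apply Finset.prod_congr rfl
    intro i _
    have hz' : z.re = 0 := hz
    have h1 := (ha i).ne'
    have h2 := (hd0 i).ne'
    rw [NN_pw (f i) _ (s := 1 / a i) (t := 1 / d i) (by have := ha i; positivity)
      (by have := hd0 i; positivity)]
    rw [hw, hz', hlam]
    simp only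
    field_simp
    rw [hd i]; ring
  have h1 : ∀ z ∈ Complex.re ⁻¹' {(1 : ℝ)}, ‖Φ z‖ ≤ B * ∏ i, (NN (f i) (1 / d i)) ^ (c i) := by
    intro z hz
    rw [hΦeq]
    refine (Hc _ fun i => (hf i).pw _).trans (le_of_eq ?_)
    congr 1
    apply Finset.prod_congr rfl
    intro i _
    have hz' : z.re = 1 := hz
    have h1 := (hc i).ne'
    have h2 := (hd0 i).ne'
    rw [NN_pw (f i) _ (s := 1 / c i) (t := 1 / d i) (by have := hc i; positivity)
      (by have := hd0 i; positivity)]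
    rw [hw, hz', hlam]
    simp only
    field_simp
    rw [hd i]; ring
  have hbdd : BddAbove ((norm ∘ Φ) '' Complex.HadamardThreeLines.verticalClosedStrip 0 1) := by
    refine ⟨(∫ p, ‖qf ε R b f p‖) * Real.exp L, ?_⟩
    rintro _ ⟨z, hz, rfl⟩
    have hz' : z.re ∈ Icc (0 : ℝ) 1 := hz
    have hzθ : |z.re - θ| ≤ 1 := by
      rw [abs_le]; constructor <;> linarith [hz'.1, hz'.2]
    simp only [Function.comp]
    rw [← integral_mul_const]
    refine norm_integral_le_of_norm_le (hG.norm.mul_const _) (ae_of_all _ fun p => ?_)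
    rw [norm_mul, Complex.norm_exp, Complex.re_mul_ofReal, Complex.sub_re, Complex.ofReal_re]
    apply mul_le_mul_of_nonneg_left _ (norm_nonneg _)
    apply Real.exp_le_exp.2
    calc (z.re - θ) * l p ≤ |(z.re - θ) * l p| := le_abs_self _
      _ = |z.re - θ| * |l p| := abs_mul _ _
      _ ≤ 1 * L := mul_le_mul hzθ (hlL p) (abs_nonneg _) zero_le_one
      _ = L := one_mul _
  have hθmem : (θ : ℂ) ∈ Complex.HadamardThreeLines.verticalClosedStrip 0 1 := by
    show (θ : ℂ).re ∈ Icc (0 : ℝ) 1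
    rw [Complex.ofReal_re]; exact ⟨hθ0, hθ1⟩
  have key := Complex.HadamardThreeLines.norm_le_interp_of_mem_verticalClosedStrip' (f := Φ)
    (l := 0) (u := 1) one_pos hθmem hdiff.diffContOnCl hbdd h0 h1
  have hΦθ : Φ θ = QF ε R b f := by
    show ∫ p, qf ε R b f p * Complex.exp (((θ : ℂ) - θ) * (l p : ℝ)) = ∫ p, qf ε R b f p
    congr 1
    funext p
    simp
  rw [hΦθ, Complex.ofReal_re, sub_zero, sub_zero, div_one] at key
  refine key.trans (le_of_eq ?_)
  have hN : ∀ i, 0 ≤ NN (f i) (1 / d i) := fun i => NN_nonneg _ _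
  have hP1 : 0 ≤ ∏ i, (NN (f i) (1 / d i)) ^ (a i) :=
    Finset.prod_nonneg fun i _ => Real.rpow_nonneg (hN i) _
  have hP2 : 0 ≤ ∏ i, (NN (f i) (1 / d i)) ^ (c i) :=
    Finset.prod_nonneg fun i _ => Real.rpow_nonneg (hN i) _
  rw [Real.mul_rpow hA hP1, Real.mul_rpow hB hP2,
    ← Real.finsetProd_rpow _ _ (fun i _ => Real.rpow_nonneg (hN i) _),
    ← Real.finsetProd_rpow _ _ (fun i _ => Real.rpow_nonneg (hN i) _)]
  calc (A ^ (1 - θ) * ∏ i, ((NN (f i) (1 / d i)) ^ (a i)) ^ (1 - θ)) *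
        (B ^ θ * ∏ i, ((NN (f i) (1 / d i)) ^ (c i)) ^ θ)
      = (A ^ (1 - θ) * B ^ θ) * ((∏ i, ((NN (f i) (1 / d i)) ^ (a i)) ^ (1 - θ)) *
        ∏ i, ((NN (f i) (1 / d i)) ^ (c i)) ^ θ) := by ring
    _ = A ^ (1 - θ) * B ^ θ * ∏ i, (NN (f i) (1 / d i)) ^ (d i) := by
      rw [← Finset.prod_mul_distrib]
      congr 1
      apply Finset.prod_congr rfl
      intro i _
      rw [← Real.rpow_mul (hN i), ← Real.rpow_mul (hN i), ← Real.rpow_add' (hN i)]
      · rw [hd i]; ring_nf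
      · have : a i * (1 - θ) + c i * θ = d i := by rw [hd i]; ring
        rw [this]; exact (hd0 i).ne'



/-- Hoelder's inequality for four functions -/
theorem holder4 {c : Fin 4 → ℝ} (hc : ∀ i, 0 < c i) (hs : ∑ i, c i = 1) (s : Fin 4 → ℝ)
    (f : Fin 4 → ℝ → ℂ) (hf : ∀ i, Nice (f i)) :
    ∫⁻ x, ∏ i, ‖f i (x - s i)‖ₑ ≤ ENNReal.ofReal (∏ i, (NN (f i) (1 / c i)) ^ (c i)) := by
  have hc1 : ∀ i, c i ≤ 1 := by
    intro i
    rw [← hs]
    exact Finset.single_le_sum (fun j _ => (hc j).le) (Finset.mem_univ i)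
  have hm : ∀ i, Measurable fun x => ‖f i (x - s i)‖ₑ ^ (1 / c i) := fun i =>
    (((hf i).meas.comp (measurable_id.sub_const (s i))).enorm).pow_const _
  have h1 := ENNReal.lintegral_prod_norm_pow_le (μ := (volume : Measure ℝ)) Finset.univ
    (f := fun i x => ‖f i (x - s i)‖ₑ ^ (1 / c i)) (fun i _ => (hm i).aemeasurable)
    hs (fun i _ => (hc i).le)
  have h2 : ∀ x, ∏ i, (‖f i (x - s i)‖ₑ ^ (1 / c i)) ^ c i = ∏ i, ‖f i (x - s i)‖ₑ := by
    intro x
    apply Finset.prod_congr rfl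
    intro i _
    rw [← ENNReal.rpow_mul, one_div_mul_cancel (hc i).ne', ENNReal.rpow_one]
  simp only [h2] at h1
  refine h1.trans (le_of_eq ?_)
  rw [ENNReal.ofReal_prod_of_nonneg (fun i _ => Real.rpow_nonneg (NN_nonneg _ _) _)]
  apply Finset.prod_congr rfl
  intro i _
  rw [← ENNReal.ofReal_rpow_of_nonneg (NN_nonneg _ _) (hc i).le]
  congr 1
  rw [lintegral_sub_right_eq_self (fun x => ‖f i x‖ₑ ^ (1 / c i)) (s i)]
  have hp : 0 < 1 / c i := one_div_pos.2 (hc i)
  have hp1 : 1 ≤ 1 / c i := (one_le_div (hc i)).2 (hc1 i)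
  have hmem : MemLp (f i) (ENNReal.ofReal (1 / c i)) volume :=
    (hf i).memLp (by rw [← ENNReal.ofReal_one]; exact ENNReal.ofReal_le_ofReal hp1)
      ENNReal.ofReal_ne_top
  have hint : Integrable (fun x => ‖f i x‖ ^ (1 / c i)) volume := by
    have := hmem.integrable_norm_rpow (by positivity) ENNReal.ofReal_ne_top
    rwa [ENNReal.toReal_ofReal hp.le] at this
  unfold NN
  rw [ofReal_integral_eq_lintegral_ofReal hint (ae_of_all _ fun x => by positivity)]
  congr 1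
  funext x
  rw [← ofReal_norm, ENNReal.ofReal_rpow_of_nonneg (norm_nonneg _) hp.le]

/-- the trivial bound -/
theorem trivial_bound {ε R : ℝ} (hε : 0 < ε) (hR : ε < R) (b : Fin 4 → ℝ) {c : Fin 4 → ℝ}
    (hc : ∀ i, 0 < c i) (hs : ∑ i, c i = 1) (f : Fin 4 → ℝ → ℂ) (hf : ∀ i, Simp (f i)) :
    ‖QF ε R b f‖ ≤ (2 * Real.log (R / ε)) * ∏ i, (NN (f i) (1 / c i)) ^ (c i) := by
  have hn : ∀ i, Nice (f i) := fun i => (hf i).nice
  have hL : 0 ≤ 2 * Real.log (R / ε) := by
    have := Real.log_nonneg ((one_le_div hε).2 hR.le)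
    positivity
  have hP0 : 0 ≤ ∏ i, (NN (f i) (1 / c i)) ^ (c i) :=
    Finset.prod_nonneg fun i _ => Real.rpow_nonneg (NN_nonneg _ _) _
  have hI := qf_int (ε := ε) (R := R) hε (b := b) hn
  have key : ‖QF ε R b f‖ₑ ≤ ENNReal.ofReal (2 * Real.log (R / ε)) *
      ENNReal.ofReal (∏ i, (NN (f i) (1 / c i)) ^ (c i)) := by
    unfold QF
    refine (enorm_integral_le_lintegral_enorm _).trans ?_
    have hm : AEMeasurable (fun p => ‖qf ε R b f p‖ₑ) (volume : Measure (ℝ × ℝ)) :=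
      hI.aestronglyMeasurable.enorm
    rw [Measure.volume_eq_prod] at hm ⊢
    rw [lintegral_prod_symm _ hm]
    have h1 : ∀ t : ℝ, ∫⁻ x, ‖qf ε R b f (x, t)‖ₑ ≤
        ENNReal.ofReal (av ε R t) * ENNReal.ofReal (∏ i, (NN (f i) (1 / c i)) ^ (c i)) := by
      intro t
      have h2 : ∀ x, ‖qf ε R b f (x, t)‖ₑ
          = ENNReal.ofReal (av ε R t) * ∏ i, ‖f i (x - b i * t)‖ₑ := by
        intro x
        unfold qf
        rw [enorm_mul, ← ofReal_norm (uu ε R t), uu_norm]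
        congr 1
        rw [← ofReal_norm, norm_prod, ENNReal.ofReal_prod_of_nonneg fun i _ => norm_nonneg _]
        apply Finset.prod_congr rfl
        intro i _
        rw [ofReal_norm]
      simp only [h2]
      rw [lintegral_const_mul' _ _ ENNReal.ofReal_ne_top]
      gcongr
      exact holder4 hc hs (fun i => b i * t) f hn
    refine (lintegral_mono h1).trans (le_of_eq ?_)
    rw [lintegral_mul_const' _ _ ENNReal.ofReal_ne_top,
      ← ofReal_integral_eq_lintegral_ofReal (av_int hε)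
        (ae_of_all _ fun t => av_nonneg ε R t), av_integral hε hR]
  rw [← ENNReal.ofReal_mul hL, ← ofReal_norm,
    ENNReal.ofReal_le_ofReal_iff (mul_nonneg hL hP0)] at key
  exact key

/-- a tuple with all entries `> l / 6` lies between the inner simplex and the open simplex -/
theorem exists_inner {d : Fin 4 → ℝ} (hs : ∑ i, d i = 1) {m l : ℝ}
    (hm : ∀ i, m ≤ d i) (hm6 : m < 1 / 6) (hl0 : 0 < l) (hl : l < 6 * m) :
    ∃ a c : Fin 4 → ℝ, (∀ i, 1 / 6 ≤ a i) ∧ ∑ i, a i = 1 ∧ (∀ i, 0 < c i) ∧ ∑ i, c i = 1 ∧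
      ∀ i, d i = (1 - (1 - l)) * a i + (1 - l) * c i := by
  have hM : 0 < 1 - 4 * m := by linarith
  have hl1 : 0 < 1 - l := by linarith
  have hsum : ∑ i, (d i - m) = 1 - 4 * m := by
    rw [Finset.sum_sub_distrib, hs]; simp
  set a : Fin 4 → ℝ := fun i => 1 / 6 + (1 / 3) * ((d i - m) / (1 - 4 * m)) with ha
  have hasum : ∑ i, a i = 1 := by
    have h6 : ∑ i, (d i - m) / (1 - 4 * m) = 1 := by
      rw [← Finset.sum_div, hsum, div_self hM.ne']
    simp only [ha]
    rw [Finset.sum_add_distrib, ← Finset.mul_sum, h6]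
    simp; norm_num
  refine ⟨a, fun i => (d i - l * a i) / (1 - l), fun i => ?_, hasum, fun i => ?_, ?_,
    fun i => ?_⟩
  · have : 0 ≤ (d i - m) / (1 - 4 * m) := div_nonneg (by linarith [hm i]) hM.le
    simp only [ha]; linarith
  · apply div_pos _ hl1
    have h1 : 0 ≤ d i - m := by linarith [hm i]
    have h2 : (d i - m) / (1 - 4 * m) * l ≤ 3 * (d i - m) := by
      rw [div_mul_eq_mul_div, div_le_iff₀ hM]
      have h4 : l ≤ 3 * (1 - 4 * m) := by linarith
      nlinarith [mul_le_mul_of_nonneg_left h4 h1]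
    simp only [ha]
    nlinarith
  · rw [← Finset.sum_div, Finset.sum_sub_distrib, ← Finset.mul_sum, hs, hasum, mul_one,
      div_self hl1.ne']
  · field_simp
    ring

/-- all exponents of the open simplex, all slopes -/
theorem simplex_all : ∃ C : ℝ, 0 < C ∧ ∀ b : Fin 4 → ℝ, ∀ ε R : ℝ, 0 < ε → ε < R →
    ∀ κ : ℝ, 0 < κ → κ ≤ 1 / 2 → ∀ d : Fin 4 → ℝ, (∀ i, κ ≤ 3 * d i) → ∑ i, d i = 1 →
    ∀ f : Fin 4 → ℝ → ℂ, (∀ i, Simp (f i)) →
      ‖QF ε R b f‖ ≤ C * (Real.log (R / ε)) ^ (1 - κ) *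
        ∏ i, (NN (f i) (1 / d i)) ^ (d i) := by
  obtain ⟨C, hC0, hC⟩ := simplex
  set D : ℝ := max C 2 with hD
  have hD0 : 0 < D := lt_of_lt_of_le two_pos (le_max_right _ _)
  have hCD : C ≤ D := le_max_left _ _
  refine ⟨D, hD0, fun b ε R hε hR κ hκ0 hκ d hd hs f hf => ?_⟩
  have hL : 0 < Real.log (R / ε) := Real.log_pos ((one_lt_div hε).2 hR)
  set L := Real.log (R / ε) with hLdef
  have hP : 0 ≤ ∏ i, (NN (f i) (1 / d i)) ^ (d i) :=
    Finset.prod_nonneg fun i _ => Real.rpow_nonneg (NN_nonneg _ _) _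
  set P := ∏ i, (NN (f i) (1 / d i)) ^ (d i) with hPdef
  rcases eq_or_lt_of_le hκ with hk | hk
  · have h := hC b ε R hε hR d (fun i => by have := hd i; linarith) hs f hf
    refine h.trans ?_
    have e : (Real.log (R / ε)) ^ (1 - κ) = √(Real.log (R / ε)) := by
      rw [Real.sqrt_eq_rpow, hk]; norm_num
    rw [← hLdef] at e
    rw [e]
    have := Real.sqrt_nonneg L
    gcongr
  · have hd0 : ∀ i, 0 < d i := fun i => by have := hd i; linarith
    have hB0 : 0 < 2 * L := by positivity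
    have hA0 : 0 < D * √L := by positivity
    have step : ∀ l : ℝ, 0 < l → l < 2 * κ →
        ‖QF ε R b f‖ ≤ (D * √L) ^ l * (2 * L) ^ (1 - l) * P := by
      intro l hl0 hl
      obtain ⟨a, c, ha, has, hc, hcs, hdac⟩ := exists_inner (m := κ / 3) (l := l) hs
        (fun i => by have := hd i; linarith) (by linarith) hl0 (by linarith)
      have h := interp2 (b := b) (θ := 1 - l) hε hA0.le hB0.le
        (fun i => by have := ha i; linarith) hc (by linarith) (by linarith)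
        (fun g hg => (hC b ε R hε hR a ha has g hg).trans (by
          have : 0 ≤ ∏ i, (NN (g i) (1 / a i)) ^ (a i) :=
            Finset.prod_nonneg fun i _ => Real.rpow_nonneg (NN_nonneg _ _) _
          have := Real.sqrt_nonneg L
          gcongr))
        (fun g hg => trivial_bound hε hR b hc hcs g hg) hdac f hf
      have e : 1 - (1 - l) = l := by ring
      rwa [e] at h
    have hlim : Tendsto (fun l : ℝ => (D * √L) ^ l * (2 * L) ^ (1 - l) * P) (𝓝[<] (2 * κ))
        (𝓝 ((D * √L) ^ (2 * κ) * (2 * L) ^ (1 - 2 * κ) * P)) := by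
      apply Tendsto.mono_left _ nhdsWithin_le_nhds
      have c1 : Continuous fun l : ℝ => (D * √L) ^ l := Real.continuous_const_rpow hA0.ne'
      have c2 : Continuous fun l : ℝ => (2 * L) ^ (1 - l) :=
        (Real.continuous_const_rpow hB0.ne').comp (continuous_const.sub continuous_id)
      exact ((c1.mul c2).mul continuous_const).tendsto _
    have hle : ‖QF ε R b f‖ ≤ (D * √L) ^ (2 * κ) * (2 * L) ^ (1 - 2 * κ) * P := by
      refine ge_of_tendsto hlim ?_
      filter_upwards [Ioo_mem_nhdsLT (show (0 : ℝ) < 2 * κ by linarith)] with l hl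
      exact step l hl.1 hl.2
    refine hle.trans ?_
    have e1 : (D * √L) ^ (2 * κ) = D ^ (2 * κ) * L ^ κ := by
      rw [Real.mul_rpow hD0.le (Real.sqrt_nonneg _), Real.sqrt_eq_rpow, ← Real.rpow_mul hL.le]
      congr 2
      ring
    have e2 : (2 * L) ^ (1 - 2 * κ) ≤ D ^ (1 - 2 * κ) * L ^ (1 - 2 * κ) := by
      rw [Real.mul_rpow (by norm_num) hL.le]
      have h2 : (2 : ℝ) ^ (1 - 2 * κ) ≤ D ^ (1 - 2 * κ) :=
        Real.rpow_le_rpow (by norm_num) (le_max_right _ _) (by linarith)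
      exact mul_le_mul_of_nonneg_right h2 (Real.rpow_nonneg hL.le _)
    have e3 : D ^ (2 * κ) * L ^ κ * (D ^ (1 - 2 * κ) * L ^ (1 - 2 * κ)) = D * L ^ (1 - κ) := by
      calc D ^ (2 * κ) * L ^ κ * (D ^ (1 - 2 * κ) * L ^ (1 - 2 * κ))
          = (D ^ (2 * κ) * D ^ (1 - 2 * κ)) * (L ^ κ * L ^ (1 - 2 * κ)) := by ring
        _ = D * L ^ (1 - κ) := by
          rw [← Real.rpow_add hD0, ← Real.rpow_add hL]
          congr 1
          · rw [show 2 * κ + (1 - 2 * κ) = 1 by ring, Real.rpow_one]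
          · congr 1; ring
    rw [e1]
    calc D ^ (2 * κ) * L ^ κ * (2 * L) ^ (1 - 2 * κ) * P
        ≤ D ^ (2 * κ) * L ^ κ * (D ^ (1 - 2 * κ) * L ^ (1 - 2 * κ)) * P := by
          have : 0 ≤ D ^ (2 * κ) * L ^ κ := by positivity
          gcongr
      _ = D * L ^ (1 - κ) * P := by rw [e3]

end Vale.Agent.P141.H115
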