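import Vale.Agent.P141.H115.Loc

/-!
# Large scales, when one function has bounded support
-/

namespace Vale.Agent.P141.H115

open MeasureTheory Set Filter Topology
open scoped ENNReal ComplexConjugate
open Vale.Agent.P141.H97

/-- norm of an affine change of variable -/
theorem elp_aff {κ c : ℝ} (hκ : κ ≠ 0) (g : ℝ → ℂ) {p : ℝ≥0∞} (hp0 : p ≠ 0) (hp : p ≠ ∞) :
    eLpNorm (fun t => g (κ * t + c)) p volume =
      ENNReal.ofReal ((|κ|⁻¹) ^ (1 / p.toReal)) * eLpNorm g p volume := by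
  have hk : 0 < |κ|⁻¹ := inv_pos.2 (abs_pos.2 hκ)
  have hp1 : 0 ≤ 1 / p.toReal := by positivity
  rw [eLpNorm_eq_lintegral_rpow_enorm_toReal hp0 hp, eLpNorm_eq_lintegral_rpow_enorm_toReal hp0 hp,
    lint1 κ c hκ (fun x => ‖g x‖ₑ ^ p.toReal), ENNReal.mul_rpow_of_nonneg _ _ hp1,
    ENNReal.ofReal_rpow_of_pos hk]

/-- the sixth power norm of the truncated kernel -/
theorem uu6 {l R : ℝ} (hl : 0 < l) :
    eLpNorm (uu l R) 6 volume ≤ ENNReal.ofReal ((2 * Real.pi) ^ ((1 : ℝ) / 6) *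
      (l⁻¹) ^ ((5 : ℝ) / 6)) := by
  have e6 : (6 : ℝ≥0∞).toReal = 6 := by norm_num
  rw [eLpNorm_eq_lintegral_rpow_enorm_toReal (by norm_num) (by norm_num), e6]
  have hpt : ∀ t : ℝ, ‖uu l R t‖ₑ ^ (6 : ℝ) ≤
      ENNReal.ofReal (2 * (l⁻¹) ^ 6) * ENNReal.ofReal ((1 + (l⁻¹ * t + 0) ^ 2)⁻¹) := by
    intro t
    rw [← ofReal_norm, uu_norm, ENNReal.ofReal_rpow_of_nonneg (av_nonneg _ _ _) (by norm_num),
      ← ENNReal.ofReal_mul (by positivity)]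
    apply ENNReal.ofReal_le_ofReal
    rw [add_zero]
    unfold av
    by_cases ht : t ∈ {t : ℝ | l < |t| ∧ |t| < R}
    · rw [indicator_of_mem ht, show (6 : ℝ) = ((6 : ℕ) : ℝ) by norm_num, Real.rpow_natCast]
      have ht1 : l < |t| := ht.1
      have ht0 : 0 < |t| := hl.trans ht1
      set u : ℝ := l⁻¹ * |t| with hu
      have hu1 : 1 ≤ u := by
        rw [hu, inv_mul_eq_div, one_le_div hl]; exact ht1.le
      have e1 : (l⁻¹ * t) ^ 2 = u ^ 2 := by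
        rw [hu, mul_pow, mul_pow, sq_abs]
      have e2 : |t|⁻¹ ^ 6 = (l⁻¹) ^ 6 * (u⁻¹) ^ 6 := by
        rw [hu, mul_inv, inv_inv, ← mul_pow, ← mul_assoc, inv_mul_cancel₀ hl.ne', one_mul]
      rw [e1, e2]
      have h3 : (u⁻¹) ^ 6 ≤ 2 * (1 + u ^ 2)⁻¹ := by
        rw [inv_pow, ← div_eq_mul_inv, inv_eq_one_div, div_le_div_iff₀ (by positivity) (by positivity)]
        have h4 : u ^ 2 ≤ u ^ 6 := pow_le_pow_right₀ hu1 (by norm_num)
        have h5 : 1 ≤ u ^ 6 := one_le_pow₀ hu1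
        linarith
      calc l⁻¹ ^ 6 * u⁻¹ ^ 6 ≤ l⁻¹ ^ 6 * (2 * (1 + u ^ 2)⁻¹) := by gcongr
        _ = _ := by ring
    · rw [indicator_of_notMem ht, Real.zero_rpow (by norm_num)]
      positivity
  have hI : ∫⁻ t : ℝ, ENNReal.ofReal ((1 + t ^ 2)⁻¹) = ENNReal.ofReal Real.pi := by
    rw [← ofReal_integral_eq_lintegral_ofReal integrable_inv_one_add_sq
      (ae_of_all _ fun t => by positivity), integral_univ_inv_one_add_sq]
  have h1 : ∫⁻ t : ℝ, ‖uu l R t‖ₑ ^ (6 : ℝ) ≤ ENNReal.ofReal (2 * Real.pi * (l⁻¹) ^ 5) := by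
    refine (lintegral_mono hpt).trans (le_of_eq ?_)
    rw [lintegral_const_mul' _ _ ENNReal.ofReal_ne_top,
      lint1 l⁻¹ 0 (inv_ne_zero hl.ne') (fun x => ENNReal.ofReal ((1 + x ^ 2)⁻¹)), hI,
      ← ENNReal.ofReal_mul (by positivity), ← ENNReal.ofReal_mul (by positivity)]
    congr 1
    rw [abs_of_pos (inv_pos.2 hl), inv_inv]
    field_simp
  refine (ENNReal.rpow_le_rpow h1 (by norm_num)).trans (le_of_eq ?_)
  rw [ENNReal.ofReal_rpow_of_nonneg (by positivity) (by norm_num),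
    Real.mul_rpow (by positivity) (by positivity)]
  congr 2
  rw [← Real.rpow_natCast, ← Real.rpow_mul (by positivity)]
  norm_num

/-- the integral of a function supported in an interval of length `l` -/
theorem l1_of_supp {a l : ℝ} (hl : 0 < l) {f : ℝ → ℂ} (hf : Measurable f)
    (hs : ∀ x, x ∉ Icc a (a + l) → f x = 0) :
    ∫⁻ x, ‖f x‖ₑ ≤ eLpNorm f 6 volume * ENNReal.ofReal (l ^ ((5 : ℝ) / 6)) := by
  have e6 : (6 : ℝ≥0∞).toReal = 6 := by norm_num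
  have hpq : Real.HolderConjugate 6 (6 / 5) := by
    rw [Real.holderConjugate_iff]; norm_num
  have h1 := ENNReal.lintegral_mul_le_Lp_mul_Lq volume hpq hf.enorm.aemeasurable
    ((measurable_const.indicator measurableSet_Icc).aemeasurable
      (f := (Icc a (a + l)).indicator fun _ => (1 : ℝ≥0∞)))
  have h2 : ∀ x, ((fun x => ‖f x‖ₑ) * (Icc a (a + l)).indicator fun _ => (1 : ℝ≥0∞)) x = ‖f x‖ₑ := by
    intro x
    by_cases hx : x ∈ Icc a (a + l)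
    · simp [indicator_of_mem hx]
    · simp [hs x hx]
  rw [lintegral_congr h2] at h1
  refine h1.trans (le_of_eq ?_)
  rw [eLpNorm_eq_lintegral_rpow_enorm_toReal (by norm_num) (by norm_num), e6]
  congr 1
  have h3 : ∀ x, ((Icc a (a + l)).indicator (fun _ => (1 : ℝ≥0∞)) x) ^ ((6 : ℝ) / 5) =
      (Icc a (a + l)).indicator (fun _ => (1 : ℝ≥0∞)) x := by
    intro x
    by_cases hx : x ∈ Icc a (a + l)
    · simp [indicator_of_mem hx]
    · rw [indicator_of_notMem hx, ENNReal.zero_rpow_of_pos (by norm_num)]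
  rw [lintegral_congr h3, lintegral_indicator measurableSet_Icc, setLIntegral_const,
    Real.volume_Icc, one_mul, add_sub_cancel_left, ENNReal.ofReal_rpow_of_pos hl]
  norm_num

/-- large scales: bound of the form -/
theorem large_form {α₁ α₂ α₃ : ℝ} (h30 : α₃ ≠ 0) (h31 : α₃ - α₁ ≠ 0) (h32 : α₃ - α₂ ≠ 0)
    {a l R : ℝ} (hl : 0 < l) {f₀ f₁ f₂ f₃ : ℝ → ℂ} (h₀ : Nice f₀) (h₁ : Nice f₁)
    (h₂ : Nice f₂) (h₃ : Nice f₃) (hs : ∀ x, x ∉ Icc a (a + l) → f₃ x = 0) :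
    ∫⁻ p : ℝ × ℝ, ‖q4 l R 0 α₁ α₂ α₃ f₀ f₁ f₂ f₃ p‖ₑ ≤
      ENNReal.ofReal ((|α₃|⁻¹) ^ ((1 : ℝ) / 6) * (|α₃ - α₁|⁻¹) ^ ((1 : ℝ) / 3) *
        (|α₃ - α₂|⁻¹) ^ ((1 : ℝ) / 3) * (2 * Real.pi) ^ ((1 : ℝ) / 6)) *
      (eLpNorm f₀ 6 volume * eLpNorm f₁ 3 volume *
        eLpNorm f₂ 3 volume * eLpNorm f₃ 6 volume) := by
  have e6 : (6 : ℝ≥0∞).toReal = 6 := by norm_num
  have e3 : (3 : ℝ≥0∞).toReal = 3 := by norm_num
  have hm := (q4_meas (ε := l) (R := R) (b₀ := 0) (b₁ := α₁) (b₂ := α₂) (b₃ := α₃)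
    h₀.meas h₁.meas h₂.meas h₃.meas).enorm
  rw [Measure.volume_eq_prod, lintegral_prod_symm _ hm.aemeasurable]
  have hshift : ∀ t : ℝ, ∫⁻ x, ‖q4 l R 0 α₁ α₂ α₃ f₀ f₁ f₂ f₃ (x, t)‖ₑ =
      ∫⁻ y, ‖f₃ y‖ₑ * (‖f₀ (α₃ * t + y)‖ₑ * ‖f₁ ((α₃ - α₁) * t + y)‖ₑ *
        ‖f₂ ((α₃ - α₂) * t + y)‖ₑ * ‖uu l R t‖ₑ) := by
    intro t
    rw [← lintegral_add_right_eq_self _ (α₃ * t)]
    apply lintegral_congr
    intro y
    unfold q4
    have x0 : y + α₃ * t - 0 * t = α₃ * t + y := by ring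
    have x1 : y + α₃ * t - α₁ * t = (α₃ - α₁) * t + y := by ring
    have x2 : y + α₃ * t - α₂ * t = (α₃ - α₂) * t + y := by ring
    have x3 : y + α₃ * t - α₃ * t = y := by ring
    simp only [x0, x1, x2, x3, enorm_mul]
    ring
  simp only [hshift]
  have hm2 : Measurable (Function.uncurry fun t y : ℝ => ‖f₃ y‖ₑ * (‖f₀ (α₃ * t + y)‖ₑ *
      ‖f₁ ((α₃ - α₁) * t + y)‖ₑ * ‖f₂ ((α₃ - α₂) * t + y)‖ₑ * ‖uu l R t‖ₑ)) := by
    have m : ∀ κ : ℝ, Measurable fun p : ℝ × ℝ => κ * p.1 + p.2 := fun κ =>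
      (measurable_const.mul measurable_fst).add measurable_snd
    exact ((h₃.meas.comp measurable_snd).enorm).mul (((((h₀.meas.comp (m α₃)).enorm).mul
      ((h₁.meas.comp (m (α₃ - α₁))).enorm)).mul ((h₂.meas.comp (m (α₃ - α₂))).enorm)).mul
      (((uu_meas l R).comp measurable_fst).enorm))
  rw [lintegral_lintegral_swap hm2.aemeasurable]
  set X : ℝ≥0∞ := ENNReal.ofReal ((|α₃|⁻¹) ^ ((1 : ℝ) / 6)) * eLpNorm f₀ 6 volume *
    (ENNReal.ofReal ((|α₃ - α₁|⁻¹) ^ ((1 : ℝ) / 3)) * eLpNorm f₁ 3 volume) *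
    (ENNReal.ofReal ((|α₃ - α₂|⁻¹) ^ ((1 : ℝ) / 3)) * eLpNorm f₂ 3 volume) *
    ENNReal.ofReal ((2 * Real.pi) ^ ((1 : ℝ) / 6) * (l⁻¹) ^ ((5 : ℝ) / 6)) with hX
  have hXt : X ≠ ∞ := by
    have l0 := (h₀.memLp (p := 6) (by norm_num) (by norm_num)).2.ne
    have l1 := (h₁.memLp (p := 3) (by norm_num) (by norm_num)).2.ne
    have l2 := (h₂.memLp (p := 3) (by norm_num) (by norm_num)).2.ne
    exact ENNReal.mul_ne_top (ENNReal.mul_ne_top (ENNReal.mul_ne_top (ENNReal.mul_ne_top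
      ENNReal.ofReal_ne_top l0) (ENNReal.mul_ne_top ENNReal.ofReal_ne_top l1))
      (ENNReal.mul_ne_top ENNReal.ofReal_ne_top l2)) ENNReal.ofReal_ne_top
  have hin : ∀ y : ℝ, ∫⁻ t, ‖f₃ y‖ₑ * (‖f₀ (α₃ * t + y)‖ₑ * ‖f₁ ((α₃ - α₁) * t + y)‖ₑ *
        ‖f₂ ((α₃ - α₂) * t + y)‖ₑ * ‖uu l R t‖ₑ) ≤ ‖f₃ y‖ₑ * X := by
    intro y
    rw [lintegral_const_mul' _ _ enorm_ne_top]
    apply mul_le_mul_right
    have m : ∀ κ : ℝ, Measurable fun t : ℝ => κ * t + y := fun κ =>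
      (measurable_const.mul measurable_id).add_const y
    refine (h4 (h₀.meas.comp (m α₃)) (h₁.meas.comp (m (α₃ - α₁)))
      (h₂.meas.comp (m (α₃ - α₂))) (uu_meas l R)).trans ?_
    have r0 := elp_aff (c := y) h30 f₀ (p := 6) (by norm_num) (by norm_num)
    have r1 := elp_aff (c := y) h31 f₁ (p := 3) (by norm_num) (by norm_num)
    have r2 := elp_aff (c := y) h32 f₂ (p := 3) (by norm_num) (by norm_num)
    rw [e6] at r0
    rw [e3] at r1 r2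
    have r0' : eLpNorm (f₀ ∘ fun t => α₃ * t + y) 6 volume = _ := r0
    have r1' : eLpNorm (f₁ ∘ fun t => (α₃ - α₁) * t + y) 3 volume = _ := r1
    have r2' : eLpNorm (f₂ ∘ fun t => (α₃ - α₂) * t + y) 3 volume = _ := r2
    rw [r0', r1', r2', hX]
    exact mul_le_mul_right (uu6 hl) _
  refine (lintegral_mono hin).trans ?_
  rw [lintegral_mul_const' _ _ hXt]
  refine (mul_le_mul_left (l1_of_supp hl h₃.meas hs) _).trans (le_of_eq ?_)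
  have hll : ENNReal.ofReal (l ^ ((5 : ℝ) / 6)) *
      ENNReal.ofReal ((2 * Real.pi) ^ ((1 : ℝ) / 6) * (l⁻¹) ^ ((5 : ℝ) / 6)) =
      ENNReal.ofReal ((2 * Real.pi) ^ ((1 : ℝ) / 6)) := by
    rw [← ENNReal.ofReal_mul (by positivity)]
    congr 1
    rw [mul_left_comm, ← Real.mul_rpow hl.le (inv_nonneg.2 hl.le), mul_inv_cancel₀ hl.ne',
      Real.one_rpow, mul_one]
  rw [ENNReal.ofReal_mul (by positivity), ENNReal.ofReal_mul (by positivity),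
    ENNReal.ofReal_mul (by positivity), ← hll, hX]
  ring

/-- large scales -/
theorem large {α₁ α₂ α₃ : ℝ} (h30 : α₃ ≠ 0) (h31 : α₃ - α₁ ≠ 0) (h32 : α₃ - α₂ ≠ 0) :
    ∃ C : ℝ, 0 ≤ C ∧ ∀ f₁ f₂ f₃ : ℝ → ℂ, Nice f₁ → Nice f₂ → Nice f₃ →
      ∀ a l R : ℝ, 0 < l → (∀ x, x ∉ Icc a (a + l) → f₃ x = 0) →
      eLpNorm (TT l R α₁ α₂ α₃ f₁ f₂ f₃) (6 / 5) volume ≤
        ENNReal.ofReal C * (eLpNorm f₁ 3 volume *
          eLpNorm f₂ 3 volume * eLpNorm f₃ 6 volume) := by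
  refine ⟨(|α₃|⁻¹) ^ ((1 : ℝ) / 6) * (|α₃ - α₁|⁻¹) ^ ((1 : ℝ) / 3) *
        (|α₃ - α₂|⁻¹) ^ ((1 : ℝ) / 3) * (2 * Real.pi) ^ ((1 : ℝ) / 6), by positivity,
    fun f₁ f₂ f₃ h₁ h₂ h₃ a l R hl hs => ?_⟩
  set C := (|α₃|⁻¹) ^ ((1 : ℝ) / 6) * (|α₃ - α₁|⁻¹) ^ ((1 : ℝ) / 3) *
        (|α₃ - α₂|⁻¹) ^ ((1 : ℝ) / 3) * (2 * Real.pi) ^ ((1 : ℝ) / 6) with hC
  have hC0 : 0 ≤ C := by positivity
  obtain ⟨B, hB⟩ := TT_bdd (R := R) (α₁ := α₁) (α₂ := α₂) (α₃ := α₃) hl h₁ h₂ h₃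
  have l1 := (h₁.memLp (p := 3) (by norm_num) (by norm_num)).2.ne
  have l2 := (h₂.memLp (p := 3) (by norm_num) (by norm_num)).2.ne
  have l3 := (h₃.memLp (p := 6) (by norm_num) (by norm_num)).2.ne
  set a₁ := (eLpNorm f₁ 3 volume).toReal with ha1
  set a₂ := (eLpNorm f₂ 3 volume).toReal with ha2
  set a₃ := (eLpNorm f₃ 6 volume).toReal with ha3
  have n1 : 0 ≤ a₁ := ENNReal.toReal_nonneg
  have n2 : 0 ≤ a₂ := ENNReal.toReal_nonneg
  have n3 : 0 ≤ a₃ := ENNReal.toReal_nonneg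
  have key := dual (d₀ := 1 / 6) (by norm_num) (by norm_num)
    (TT_meas (ε := l) (R := R) (α₁ := α₁) (α₂ := α₂) (α₃ := α₃) h₁ h₂ h₃) hB
    (A := C * (a₁ * a₂ * a₃)) (by positivity) fun f₀ h₀ => ?_
  · rw [ofReal_65, ENNReal.ofReal_mul (p := C) hC0,
      ENNReal.ofReal_mul (p := a₁ * a₂) (by positivity),
      ENNReal.ofReal_mul (p := a₁) n1, ha1, ha2, ha3, ENNReal.ofReal_toReal l1, ENNReal.ofReal_toReal l2,
      ENNReal.ofReal_toReal l3] at key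
    exact key
  · have k₀ := h₀.nice
    have l0 := (k₀.memLp (p := 6) (by norm_num) (by norm_num)).2.ne
    rw [← elp6 h₀, ← Q4_pair hl k₀ h₁ h₂ h₃]
    set a₀ := (eLpNorm f₀ 6 volume).toReal with ha0
    have n0 : 0 ≤ a₀ := ENNReal.toReal_nonneg
    have h6 := (enorm_integral_le_lintegral_enorm _).trans
      (large_form (α₁ := α₁) (α₂ := α₂) (R := R) h30 h31 h32 hl k₀ h₁ h₂ h₃ hs)
    rw [← hC] at h6
    have h7 : ENNReal.ofReal C * (eLpNorm f₀ 6 volume *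
        eLpNorm f₁ 3 volume * eLpNorm f₂ 3 volume * eLpNorm f₃ 6 volume) =
        ENNReal.ofReal (C * (a₀ * a₁ * a₂ * a₃)) := by
      rw [← ENNReal.ofReal_toReal l0, ← ENNReal.ofReal_toReal l1, ← ENNReal.ofReal_toReal l2,
        ← ENNReal.ofReal_toReal l3, ← ENNReal.ofReal_mul (by positivity),
        ← ENNReal.ofReal_mul (by positivity), ← ENNReal.ofReal_mul (by positivity),
        ← ENNReal.ofReal_mul (by positivity)]
    rw [h7, ← ofReal_norm, ENNReal.ofReal_le_ofReal_iff (by positivity)] at h6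
    refine le_trans h6 (le_of_eq ?_)
    ring

end Vale.Agent.P141.H115
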