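import Vale.Agent.P141.H115.OpAll

/-!
# The trilinear Hilbert transform when one function is regular: small, middle and large scales
-/

namespace Vale.Agent.P141.H115

open MeasureTheory Set Filter Topology
open scoped ENNReal ComplexConjugate
open Vale.Agent.P141.H97

/-- Hoelder's inequality with exponents `6, 3, 3, 6` -/
theorem h4 {g₀ g₁ g₂ g₃ : ℝ → ℂ} (m₀ : Measurable g₀) (m₁ : Measurable g₁) (m₂ : Measurable g₂)
    (m₃ : Measurable g₃) :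
    ∫⁻ x, ‖g₀ x‖ₑ * ‖g₁ x‖ₑ * ‖g₂ x‖ₑ * ‖g₃ x‖ₑ ≤
      eLpNorm g₀ 6 volume * eLpNorm g₁ 3 volume * eLpNorm g₂ 3 volume * eLpNorm g₃ 6 volume := by
  set G : Fin 4 → ℝ → ℂ := ![g₀, g₁, g₂, g₃] with hG
  set q : Fin 4 → ℝ := ![6, 3, 3, 6] with hq
  have hq0 : ∀ i, 0 < q i := by
    intro i; fin_cases i <;> norm_num [hq]
  have hGm : ∀ i, Measurable (G i) := by
    intro i; fin_cases i
    · exact m₀
    · exact m₁
    · exact m₂
    · exact m₃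
  have h1 := ENNReal.lintegral_prod_norm_pow_le (μ := (volume : Measure ℝ)) Finset.univ
    (f := fun i x => ‖G i x‖ₑ ^ (q i)) (p := fun i => (q i)⁻¹)
    (fun i _ => ((hGm i).enorm.pow_const _).aemeasurable)
    (by rw [Fin.sum_univ_four]; simp [hq]; norm_num) (fun i _ => (inv_pos.2 (hq0 i)).le)
  have h2 : ∀ x, ∏ i, (‖G i x‖ₑ ^ (q i)) ^ (q i)⁻¹ = ‖g₀ x‖ₑ * ‖g₁ x‖ₑ * ‖g₂ x‖ₑ * ‖g₃ x‖ₑ := by
    intro x
    have : ∀ i, (‖G i x‖ₑ ^ (q i)) ^ (q i)⁻¹ = ‖G i x‖ₑ := fun i => by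
      rw [← ENNReal.rpow_mul, mul_inv_cancel₀ (hq0 i).ne', ENNReal.rpow_one]
    simp only [this]
    rw [Fin.prod_univ_four]
    rfl
  simp only [h2] at h1
  refine h1.trans (le_of_eq ?_)
  rw [Fin.prod_univ_four]
  have e6 : (6 : ℝ≥0∞).toReal = 6 := by norm_num
  have e3 : (3 : ℝ≥0∞).toReal = 3 := by norm_num
  have n6 : ∀ g : ℝ → ℂ, (∫⁻ x, ‖g x‖ₑ ^ (6 : ℝ)) ^ ((6 : ℝ)⁻¹) = eLpNorm g 6 volume := by
    intro g
    rw [eLpNorm_eq_lintegral_rpow_enorm_toReal (by norm_num) (by norm_num), e6, one_div]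
  have n3 : ∀ g : ℝ → ℂ, (∫⁻ x, ‖g x‖ₑ ^ (3 : ℝ)) ^ ((3 : ℝ)⁻¹) = eLpNorm g 3 volume := by
    intro g
    rw [eLpNorm_eq_lintegral_rpow_enorm_toReal (by norm_num) (by norm_num), e3, one_div]
  rw [← n6 g₀, ← n3 g₁, ← n3 g₂, ← n6 g₃]
  rfl

theorem nice_mul {f g : ℝ → ℂ} (hf : Nice f) (hg : Nice g) : Nice fun x => f x * g x := by
  obtain ⟨A, hA⟩ := hf.bdd
  obtain ⟨B, hB⟩ := hg.bdd
  have hA0 : 0 ≤ A := (norm_nonneg _).trans (hA 0)
  refine ⟨hf.meas.mul hg.meas, ⟨A * B, fun x => ?_⟩, ?_⟩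
  · rw [norm_mul]
    exact mul_le_mul (hA x) (hB x) (norm_nonneg _) hA0
  · refine (hf.int.norm.mul_const B).mono' (hf.meas.mul hg.meas).aestronglyMeasurable
      (ae_of_all _ fun x => ?_)
    rw [norm_mul]
    exact mul_le_mul_of_nonneg_left (hB x) (norm_nonneg _)

/-- the error at small scales -/
theorem small_err {ε δ K α₁ α₂ α₃ : ℝ} (hε : 0 < ε) (hK : 0 ≤ K)
    {f₀ f₁ f₂ f₃ : ℝ → ℂ} (h₀ : Nice f₀) (h₁ : Nice f₁) (h₂ : Nice f₂) (h₃ : Nice f₃)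
    (hreg : ∀ s, eLpNorm (fun x => f₃ (x - s) - f₃ x) 6 volume ≤
      ENNReal.ofReal (K * |s|) * eLpNorm f₃ 6 volume) :
    ∫⁻ p : ℝ × ℝ, ‖q4 ε δ 0 α₁ α₂ α₃ f₀ f₁ f₂ f₃ p -
        bk ε δ α₁ α₂ 0 f₁ f₂ (fun x => f₀ x * f₃ x) p‖ₑ ≤
      ENNReal.ofReal (2 * δ * (K * |α₃|)) * (eLpNorm f₀ 6 volume * eLpNorm f₁ 3 volume *
        eLpNorm f₂ 3 volume * eLpNorm f₃ 6 volume) := by
  have hpt : ∀ p : ℝ × ℝ, q4 ε δ 0 α₁ α₂ α₃ f₀ f₁ f₂ f₃ p -
      bk ε δ α₁ α₂ 0 f₁ f₂ (fun x => f₀ x * f₃ x) p = uu ε δ p.2 * (f₀ p.1 *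
        f₁ (p.1 - α₁ * p.2) * f₂ (p.1 - α₂ * p.2) * (f₃ (p.1 - α₃ * p.2) - f₃ p.1)) := by
    intro p
    unfold q4 bk uu
    by_cases h : p.2 ∈ {t : ℝ | ε < |t| ∧ |t| < δ}
    · rw [indicator_of_mem h, if_pos (by exact h)]
      simp only [zero_mul, sub_zero]
      rw [div_eq_mul_inv]
      ring
    · rw [indicator_of_notMem h, if_neg (by exact h)]
      ring
  simp only [hpt]
  have hm : Measurable fun p : ℝ × ℝ => uu ε δ p.2 * (f₀ p.1 *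
        f₁ (p.1 - α₁ * p.2) * f₂ (p.1 - α₂ * p.2) * (f₃ (p.1 - α₃ * p.2) - f₃ p.1)) := by
    have m : ∀ α : ℝ, Measurable fun p : ℝ × ℝ => p.1 - α * p.2 := fun α =>
      measurable_fst.sub (measurable_const.mul measurable_snd)
    exact ((uu_meas ε δ).comp measurable_snd).mul ((((h₀.meas.comp measurable_fst).mul
      (h₁.meas.comp (m α₁))).mul (h₂.meas.comp (m α₂))).mul
      ((h₃.meas.comp (m α₃)).sub (h₃.meas.comp measurable_fst)))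
  rw [Measure.volume_eq_prod, lintegral_prod_symm _ hm.enorm.aemeasurable]
  set P := eLpNorm f₀ 6 volume * eLpNorm f₁ 3 volume * eLpNorm f₂ 3 volume *
    eLpNorm f₃ 6 volume with hP
  have hin : ∀ t : ℝ, ∫⁻ x, ‖uu ε δ t * (f₀ x * f₁ (x - α₁ * t) * f₂ (x - α₂ * t) *
      (f₃ (x - α₃ * t) - f₃ x))‖ₑ ≤
      (Ioo (-δ) δ).indicator (fun _ => ENNReal.ofReal (K * |α₃|)) t * P := by
    intro t
    have e1 : ∀ x, ‖uu ε δ t * (f₀ x * f₁ (x - α₁ * t) * f₂ (x - α₂ * t) *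
        (f₃ (x - α₃ * t) - f₃ x))‖ₑ = ‖uu ε δ t‖ₑ * (‖f₀ x‖ₑ * ‖f₁ (x - α₁ * t)‖ₑ *
          ‖f₂ (x - α₂ * t)‖ₑ * ‖f₃ (x - α₃ * t) - f₃ x‖ₑ) := by
      intro x
      rw [enorm_mul, enorm_mul, enorm_mul, enorm_mul]
    simp only [e1]
    have m1 : Measurable fun x => f₁ (x - α₁ * t) := h₁.meas.comp (measurable_id.sub_const _)
    have m2 : Measurable fun x => f₂ (x - α₂ * t) := h₂.meas.comp (measurable_id.sub_const _)
    have m3 : Measurable fun x => f₃ (x - α₃ * t) - f₃ x :=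
      (h₃.meas.comp (measurable_id.sub_const _)).sub h₃.meas
    rw [lintegral_const_mul' _ _ enorm_ne_top]
    have h5 := h4 h₀.meas m1 m2 m3
    rw [eLpNorm_shift h₁.meas, eLpNorm_shift h₂.meas] at h5
    have h6 := hreg (α₃ * t)
    by_cases ht : t ∈ {t : ℝ | ε < |t| ∧ |t| < δ}
    · rw [indicator_of_mem (setA_sub ε δ ht)]
      have h7 : ‖uu ε δ t‖ₑ = ENNReal.ofReal (|t|⁻¹) := by
        rw [← ofReal_norm, uu_norm]
        unfold av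
        rw [indicator_of_mem ht]
      have ht0 : 0 < |t| := hε.trans ht.1
      calc ‖uu ε δ t‖ₑ * _ ≤ ENNReal.ofReal (|t|⁻¹) * (eLpNorm f₀ 6 volume *
              eLpNorm f₁ 3 volume * eLpNorm f₂ 3 volume *
              (ENNReal.ofReal (K * |α₃ * t|) * eLpNorm f₃ 6 volume)) := by
            rw [h7]
            exact mul_le_mul_right (h5.trans (mul_le_mul_right h6 _)) _
        _ = (ENNReal.ofReal (|t|⁻¹) * ENNReal.ofReal (K * |α₃ * t|)) * P := by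
            rw [hP]; ring
        _ = ENNReal.ofReal (K * |α₃|) * P := by
            rw [← ENNReal.ofReal_mul (by positivity)]
            congr 2
            rw [abs_mul]
            field_simp
    · have h7 : uu ε δ t = 0 := by
        unfold uu
        rw [indicator_of_notMem ht]
      rw [h7, enorm_zero, zero_mul]
      exact bot_le
  refine (lintegral_mono hin).trans (le_of_eq ?_)
  rw [lintegral_mul_const _ (measurable_const.indicator measurableSet_Ioo),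
    lintegral_indicator measurableSet_Ioo, setLIntegral_const, Real.volume_Ioo,
    ← ENNReal.ofReal_mul (by positivity)]
  congr 2
  ring

theorem ofReal_65 : ENNReal.ofReal (1 / (1 - 1 / 6)) = 6 / 5 := by
  rw [show (1 : ℝ) / (1 - 1 / 6) = 6 / 5 by norm_num,
    ENNReal.ofReal_div_of_pos (by norm_num)]
  norm_num

theorem elp6 {f : ℝ → ℂ} (hf : Simp f) :
    (eLpNorm f 6 volume).toReal = (NN f (1 / (1 / 6))) ^ ((1 : ℝ) / 6) := by
  have e6 : (6 : ℝ≥0∞).toReal = 6 := by norm_num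
  rw [elp_NN (hf.nice.memLp (by norm_num) (by norm_num)) (by norm_num) (by norm_num), e6,
    ENNReal.toReal_ofReal (Real.rpow_nonneg (NN_nonneg _ _) _), one_div, one_div, inv_inv]

/-- small scales -/
theorem small : ∃ C : ℝ, 0 ≤ C ∧ ∀ α₁ α₂ α₃ : ℝ, ∀ f₁ f₂ f₃ : ℝ → ℂ, Nice f₁ → Nice f₂ →
    Nice f₃ → ∀ K : ℝ, 0 ≤ K → (∀ s, eLpNorm (fun x => f₃ (x - s) - f₃ x) 6 volume ≤
      ENNReal.ofReal (K * |s|) * eLpNorm f₃ 6 volume) → ∀ ε δ : ℝ, 0 < ε → ε < δ →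
      eLpNorm (TT ε δ α₁ α₂ α₃ f₁ f₂ f₃) (6 / 5) volume ≤
        ENNReal.ofReal (C + 2 * δ * (K * |α₃|)) * (eLpNorm f₁ 3 volume *
          eLpNorm f₂ 3 volume * eLpNorm f₃ 6 volume) := by
  obtain ⟨C, hC0, hC⟩ := bht
  refine ⟨C, hC0, fun α₁ α₂ α₃ f₁ f₂ f₃ h₁ h₂ h₃ K hK hreg ε δ hε hδ => ?_⟩
  have hδ0 : 0 < δ := hε.trans hδ
  obtain ⟨B, hB⟩ := TT_bdd (R := δ) (α₁ := α₁) (α₂ := α₂) (α₃ := α₃) hε h₁ h₂ h₃
  have l1 := (h₁.memLp (p := 3) (by norm_num) (by norm_num)).2.ne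
  have l2 := (h₂.memLp (p := 3) (by norm_num) (by norm_num)).2.ne
  have l3 := (h₃.memLp (p := 6) (by norm_num) (by norm_num)).2.ne
  set a₁ := (eLpNorm f₁ 3 volume).toReal with ha1
  set a₂ := (eLpNorm f₂ 3 volume).toReal with ha2
  set a₃ := (eLpNorm f₃ 6 volume).toReal with ha3
  have n1 : 0 ≤ a₁ := ENNReal.toReal_nonneg
  have n2 : 0 ≤ a₂ := ENNReal.toReal_nonneg
  have n3 : 0 ≤ a₃ := ENNReal.toReal_nonneg
  have key := dual (d₀ := 1 / 6) (by norm_num) (by norm_num)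
    (TT_meas (ε := ε) (R := δ) (α₁ := α₁) (α₂ := α₂) (α₃ := α₃) h₁ h₂ h₃) hB
    (A := (C + 2 * δ * (K * |α₃|)) * (a₁ * a₂ * a₃)) (by positivity) fun f₀ h₀ => ?_
  · rw [ofReal_65, ENNReal.ofReal_mul (by positivity), ENNReal.ofReal_mul (by positivity),
      ENNReal.ofReal_mul n1, ha1, ha2, ha3, ENNReal.ofReal_toReal l1, ENNReal.ofReal_toReal l2,
      ENNReal.ofReal_toReal l3] at key
    exact key
  · have k₀ := h₀.nice
    have l0 := (k₀.memLp (p := 6) (by norm_num) (by norm_num)).2.ne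
    rw [← elp6 h₀, ← Q4_pair hε k₀ h₁ h₂ h₃]
    set a₀ := (eLpNorm f₀ 6 volume).toReal with ha0
    have n0 : 0 ≤ a₀ := ENNReal.toReal_nonneg
    have k03 := nice_mul k₀ h₃
    have i1 := q4_int (R := δ) (b₀ := 0) (b₁ := α₁) (b₂ := α₂) (b₃ := α₃) hε k₀ h₁ h₂ h₃
    have i2 := bk_int (R := δ) (α₁ := α₁) (α₂ := α₂) (α₃ := 0) hε h₁ h₂ k03
    have hsplit : Q4 ε δ 0 α₁ α₂ α₃ f₀ f₁ f₂ f₃ =
        (∫ p, bk ε δ α₁ α₂ 0 f₁ f₂ (fun x => f₀ x * f₃ x) p) +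
        ∫ p, (q4 ε δ 0 α₁ α₂ α₃ f₀ f₁ f₂ f₃ p -
          bk ε δ α₁ α₂ 0 f₁ f₂ (fun x => f₀ x * f₃ x) p) := by
      rw [integral_sub i1 i2]
      unfold Q4
      ring
    have hb := hC α₁ α₂ 0 f₁ f₂ _ h₁ h₂ k03 ε δ hε hδ
    have h03 : (eLpNorm (fun x => f₀ x * f₃ x) 3 volume).toReal ≤ a₀ * a₃ := by
      have := holder663
      have h5 := eLpNorm_smul_le_mul_eLpNorm (p := 6) (q := 6) (r := 3) (μ := volume)
        (f := f₃) (φ := f₀) h₃.meas.aestronglyMeasurable k₀.meas.aestronglyMeasurable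
      rw [ha0, ha3, ← ENNReal.toReal_mul]
      exact ENNReal.toReal_mono (ENNReal.mul_ne_top l0 l3) h5
    have he : ‖∫ p, (q4 ε δ 0 α₁ α₂ α₃ f₀ f₁ f₂ f₃ p -
          bk ε δ α₁ α₂ 0 f₁ f₂ (fun x => f₀ x * f₃ x) p)‖ ≤
        2 * δ * (K * |α₃|) * (a₀ * a₁ * a₂ * a₃) := by
      have h6 := (enorm_integral_le_lintegral_enorm _).trans
        (small_err (δ := δ) (α₁ := α₁) (α₂ := α₂) (α₃ := α₃) hε hK k₀ h₁ h₂ h₃ hreg)
      have h7 : ENNReal.ofReal (2 * δ * (K * |α₃|)) * (eLpNorm f₀ 6 volume *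
          eLpNorm f₁ 3 volume * eLpNorm f₂ 3 volume * eLpNorm f₃ 6 volume) =
          ENNReal.ofReal (2 * δ * (K * |α₃|) * (a₀ * a₁ * a₂ * a₃)) := by
        rw [← ENNReal.ofReal_toReal l0, ← ENNReal.ofReal_toReal l1, ← ENNReal.ofReal_toReal l2,
          ← ENNReal.ofReal_toReal l3, ← ENNReal.ofReal_mul (by positivity),
          ← ENNReal.ofReal_mul (by positivity), ← ENNReal.ofReal_mul (by positivity),
          ← ENNReal.ofReal_mul (by positivity)]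
      rw [h7, ← ofReal_norm, ENNReal.ofReal_le_ofReal_iff (by positivity)] at h6
      exact h6
    rw [hsplit]
    refine (norm_add_le _ _).trans ?_
    calc _ ≤ C * (a₁ * a₂ * (a₀ * a₃)) + 2 * δ * (K * |α₃|) * (a₀ * a₁ * a₂ * a₃) := by
          refine add_le_add (hb.trans ?_) he
          gcongr
      _ = _ := by ring

end Vale.Agent.P141.H115
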