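import Vale.Agent.P141.H115.Interp2

/-!
# Truncated trilinear Hilbert transforms: all Hoelder tuples of the open Banach simplex
-/

namespace Vale.Agent.P141.H115

open MeasureTheory Set Filter Topology
open scoped ENNReal ComplexConjugate
open Vale.Agent.P141.H97

/-- the operator bound, with the exponents `1/d i`, all slopes, all exponents -/
theorem op_simp_all : ∃ C : ℝ, 0 < C ∧ ∀ α₁ α₂ α₃ : ℝ, ∀ ε R : ℝ, 0 < ε → ε < R →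
    ∀ κ : ℝ, 0 < κ → κ ≤ 1 / 2 → ∀ d : Fin 4 → ℝ, (∀ i, κ ≤ 3 * d i) → ∑ i, d i = 1 →
    ∀ f₁ f₂ f₃ : ℝ → ℂ, Simp f₁ → Simp f₂ → Simp f₃ →
      eLpNorm (TT ε R α₁ α₂ α₃ f₁ f₂ f₃) (ENNReal.ofReal (1 / (1 - d 0))) volume ≤
        ENNReal.ofReal (C * (Real.log (R / ε)) ^ (1 - κ) * ((NN f₁ (1 / d 1)) ^ (d 1) *
          (NN f₂ (1 / d 2)) ^ (d 2) * (NN f₃ (1 / d 3)) ^ (d 3))) := by
  obtain ⟨C, hC0, hC⟩ := simplex_all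
  refine ⟨C, hC0, fun α₁ α₂ α₃ ε R hε hR κ hκ0 hκ d hd hs f₁ f₂ f₃ h₁ h₂ h₃ => ?_⟩
  have hs' := hs
  rw [Fin.sum_univ_four] at hs'
  have d0 := hd 0
  have d1 := hd 1
  have d2 := hd 2
  have d3 := hd 3
  have hL : 0 ≤ Real.log (R / ε) := Real.log_nonneg ((one_le_div hε).2 hR.le)
  have hLk : 0 ≤ (Real.log (R / ε)) ^ (1 - κ) := Real.rpow_nonneg hL _
  obtain ⟨B, hB⟩ := TT_bdd (R := R) (α₁ := α₁) (α₂ := α₂) (α₃ := α₃) hε h₁.nice h₂.nice h₃.nice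
  have n1 := NN_nonneg f₁ (1 / d 1)
  have n2 := NN_nonneg f₂ (1 / d 2)
  have n3 := NN_nonneg f₃ (1 / d 3)
  refine dual (by linarith) (by linarith) (TT_meas h₁.nice h₂.nice h₃.nice) hB
    (by positivity) fun f₀ h₀ => ?_
  have h := hC ![0, α₁, α₂, α₃] ε R hε hR κ hκ0 hκ d hd hs ![f₀, f₁, f₂, f₃] (fun i => by
    fin_cases i
    · exact h₀
    · exact h₁
    · exact h₂
    · exact h₃)
  have e1 : QF ε R ![0, α₁, α₂, α₃] ![f₀, f₁, f₂, f₃]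
      = ∫ x, f₀ x * TT ε R α₁ α₂ α₃ f₁ f₂ f₃ x := by
    rw [QF_eq]
    exact Q4_pair hε h₀.nice h₁.nice h₂.nice h₃.nice
  rw [e1, Fin.prod_univ_four] at h
  refine h.trans (le_of_eq ?_)
  show C * (Real.log (R / ε)) ^ (1 - κ) * ((NN f₀ (1 / d 0)) ^ (d 0) *
    (NN f₁ (1 / d 1)) ^ (d 1) * (NN f₂ (1 / d 2)) ^ (d 2) * (NN f₃ (1 / d 3)) ^ (d 3)) = _
  ring

theorem ne_of_toReal_inv {p : ℝ≥0∞} (h : 0 < (p⁻¹).toReal) : p ≠ 0 ∧ p ≠ ∞ := by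
  constructor
  · rintro rfl
    simp at h
  · rintro rfl
    simp at h

/-- **all Hoelder tuples with `1 < r`, `p_i < ∞`; uniformly in all slopes** -/
theorem op_all : ∃ C : ℝ, 0 < C ∧ ∀ α₁ α₂ α₃ : ℝ, ∀ κ : ℝ, 0 < κ → κ ≤ 1 / 2 →
    ∀ p₁ p₂ p₃ r : ℝ≥0∞, κ ≤ 3 * (p₁⁻¹).toReal → κ ≤ 3 * (p₂⁻¹).toReal →
    κ ≤ 3 * (p₃⁻¹).toReal → κ ≤ 3 * (1 - (r⁻¹).toReal) →
    r⁻¹ = p₁⁻¹ + p₂⁻¹ + p₃⁻¹ → ∀ f₁ f₂ f₃ : ℝ → ℂ, Nice f₁ → Nice f₂ → Nice f₃ →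
    ∀ ε R : ℝ, 0 < ε → ε < R →
      eLpNorm (TT ε R α₁ α₂ α₃ f₁ f₂ f₃) r volume ≤
        ENNReal.ofReal (C * (Real.log (R / ε)) ^ (1 - κ)) * eLpNorm f₁ p₁ volume *
          eLpNorm f₂ p₂ volume * eLpNorm f₃ p₃ volume := by
  obtain ⟨C, hC0, hC⟩ := op_simp_all
  refine ⟨C, hC0, fun α₁ α₂ α₃ κ hκ0 hκ p₁ p₂ p₃ r b1 b2 b3 b0 hsum f₁ f₂ f₃ k₁ k₂ k₃ ε R hε
    hR => ?_⟩
  obtain ⟨z1, t1⟩ := ne_of_toReal_inv (p := p₁) (by linarith)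
  obtain ⟨z2, t2⟩ := ne_of_toReal_inv (p := p₂) (by linarith)
  obtain ⟨z3, t3⟩ := ne_of_toReal_inv (p := p₃) (by linarith)
  have i1 : p₁⁻¹ ≠ ∞ := ENNReal.inv_ne_top.2 z1
  have i2 : p₂⁻¹ ≠ ∞ := ENNReal.inv_ne_top.2 z2
  have i3 : p₃⁻¹ ≠ ∞ := ENNReal.inv_ne_top.2 z3
  have hs : (r⁻¹).toReal = (p₁⁻¹).toReal + (p₂⁻¹).toReal + (p₃⁻¹).toReal := by
    rw [hsum, ENNReal.toReal_add (ENNReal.add_ne_top.2 ⟨i1, i2⟩) i3, ENNReal.toReal_add i1 i2]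
  obtain ⟨zr, tr⟩ := ne_of_toReal_inv (p := r) (by rw [hs]; linarith)
  have one_le : ∀ {p : ℝ≥0∞}, p ≠ ∞ → 0 < (p⁻¹).toReal → (p⁻¹).toReal ≤ 1 → 1 ≤ p := by
    intro p hp h6 hle
    rw [ENNReal.toReal_inv] at h6 hle
    have hpos : 0 < p.toReal := inv_pos.1 h6
    have h12 : 1 ≤ p.toReal := by
      have := inv_anti₀ h6 hle
      simpa using this
    rw [← ENNReal.ofReal_toReal hp, ← ENNReal.ofReal_one]
    exact ENNReal.ofReal_le_ofReal h12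
  have o1 : 1 ≤ p₁ := one_le t1 (by linarith) (by linarith)
  have o2 : 1 ≤ p₂ := one_le t2 (by linarith) (by linarith)
  have o3 : 1 ≤ p₃ := one_le t3 (by linarith) (by linarith)
  set d : Fin 4 → ℝ := ![1 - (r⁻¹).toReal, (p₁⁻¹).toReal, (p₂⁻¹).toReal, (p₃⁻¹).toReal] with hd
  have e0 : d 0 = 1 - (r⁻¹).toReal := rfl
  have e1 : d 1 = (p₁⁻¹).toReal := rfl
  have e2 : d 2 = (p₂⁻¹).toReal := rfl
  have e3 : d 3 = (p₃⁻¹).toReal := rfl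
  have hd6 : ∀ i, κ ≤ 3 * d i := by
    intro i
    fin_cases i
    · exact b0
    · exact b1
    · exact b2
    · exact b3
  have hd1 : ∑ i, d i = 1 := by
    rw [Fin.sum_univ_four, e0, e1, e2, e3]; linarith
  have hrr : ENNReal.ofReal (1 / (1 - d 0)) = r := by
    rw [e0, sub_sub_cancel, ENNReal.toReal_inv, one_div, inv_inv, ENNReal.ofReal_toReal tr]
  have hlim : ∀ᵐ x : ℝ, Tendsto
      (fun n => TT ε R α₁ α₂ α₃ (cut n f₁) (cut n f₂) (cut n f₃) x) atTop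
      (𝓝 (TT ε R α₁ α₂ α₃ f₁ f₂ f₃ x)) := ae_of_all _ fun x => TT_cut hε k₁ k₂ k₃ x
  obtain ⟨B₁, hB₁⟩ := k₁.bdd
  obtain ⟨B₂, hB₂⟩ := k₂.bdd
  obtain ⟨B₃, hB₃⟩ := k₃.bdd
  have c1 := fun n => cut_simp n k₁.meas hB₁
  have c2 := fun n => cut_simp n k₂.meas hB₂
  have c3 := fun n => cut_simp n k₃.meas hB₃
  refine (Lp.eLpNorm_lim_le_liminf_eLpNorm (fun n => (TT_meas (c1 n).nice (c2 n).nice
    (c3 n).nice).aestronglyMeasurable) _ hlim).trans ?_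
  refine liminf_le_of_le (by isBoundedDefault) fun b hb => ?_
  obtain ⟨n, hn⟩ := hb.exists
  refine hn.trans ?_
  have h := hC α₁ α₂ α₃ ε R hε hR κ hκ0 hκ d hd6 hd1 _ _ _ (c1 n) (c2 n) (c3 n)
  rw [hrr] at h
  refine h.trans ?_
  have hL : 0 ≤ Real.log (R / ε) := Real.log_nonneg ((one_le_div hε).2 hR.le)
  have hK : 0 ≤ C * (Real.log (R / ε)) ^ (1 - κ) :=
    mul_nonneg hC0.le (Real.rpow_nonneg hL _)
  have conv : ∀ {p : ℝ≥0∞} {f : ℝ → ℂ}, 1 ≤ p → p ≠ ∞ → Nice (cut n f) →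
      ENNReal.ofReal ((NN (cut n f) (1 / (p⁻¹).toReal)) ^ (p⁻¹).toReal) ≤
        eLpNorm f p volume := by
    intro p f hp1 hpt hf
    rw [ENNReal.toReal_inv, one_div, inv_inv, ← elp_NN (hf.memLp hp1 hpt) hp1 hpt]
    exact eLpNorm_mono fun x => cut_norm_le n f x
  have v1 := conv o1 t1 (c1 n).nice
  have v2 := conv o2 t2 (c2 n).nice
  have v3 := conv o3 t3 (c3 n).nice
  rw [← e1] at v1
  rw [← e2] at v2
  rw [← e3] at v3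
  have x1 : 0 ≤ (NN (cut n f₁) (1 / d 1)) ^ (d 1) := Real.rpow_nonneg (NN_nonneg _ _) _
  have x2 : 0 ≤ (NN (cut n f₂) (1 / d 2)) ^ (d 2) := Real.rpow_nonneg (NN_nonneg _ _) _
  calc ENNReal.ofReal (C * (Real.log (R / ε)) ^ (1 - κ) * ((NN (cut n f₁) (1 / d 1)) ^ (d 1) *
          (NN (cut n f₂) (1 / d 2)) ^ (d 2) * (NN (cut n f₃) (1 / d 3)) ^ (d 3)))
      = ENNReal.ofReal (C * (Real.log (R / ε)) ^ (1 - κ)) * (ENNReal.ofReal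
          ((NN (cut n f₁) (1 / d 1)) ^ (d 1)) * ENNReal.ofReal ((NN (cut n f₂) (1 / d 2)) ^ (d 2)) *
          ENNReal.ofReal ((NN (cut n f₃) (1 / d 3)) ^ (d 3))) := by
        rw [ENNReal.ofReal_mul hK, ENNReal.ofReal_mul (mul_nonneg x1 x2), ENNReal.ofReal_mul x1]
    _ ≤ ENNReal.ofReal (C * (Real.log (R / ε)) ^ (1 - κ)) * (eLpNorm f₁ p₁ volume *
          eLpNorm f₂ p₂ volume * eLpNorm f₃ p₃ volume) := by gcongr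
    _ = _ := by ring

end Vale.Agent.P141.H115
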