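import Vale.Agent.P141.H115.Bht
import Vale.Agent.P141.H97.All

/-!
# Truncated trilinear Hilbert transforms with arbitrary slopes, uniformly in the slopes
-/

namespace Vale.Agent.P141.H115

open MeasureTheory Set Filter Topology
open scoped ENNReal ComplexConjugate
open Vale.Agent.P141.H97

/-- the square bound, one constant for all slopes -/
theorem main :
    ∃ C : ℝ, 0 ≤ C ∧ ∀ α₁ α₂ α₃ : ℝ, ∀ f₁ f₂ f₃ : ℝ → ℂ, Nice f₁ → Nice f₂ → Nice f₃ →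
      ∀ ε R : ℝ, 0 < ε → ε < R →
        ∫ x, ‖TT ε R α₁ α₂ α₃ f₁ f₂ f₃ x‖ ^ 2 ≤ C * Real.log (R / ε) * PP f₁ f₂ f₃ := by
  obtain ⟨C, hC0, hC'⟩ := bht
  refine ⟨4 * C + 58, by positivity, fun α₁ α₂ α₃ f₁ f₂ f₃ h₁ h₂ h₃ ε R hε hR => ?_⟩
  have hC := hC' α₁ α₂ α₃
  have hI := Ph_int (R := R) (α₁ := α₁) (α₂ := α₂) (α₃ := α₃) hε h₁ h₂ h₃
  have habs : Measurable fun q : ℝ × ℝ => |q.2 - q.1| :=
    measurable_abs.comp (measurable_snd.sub measurable_fst)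
  have m0 : MeasurableSet {q : ℝ × ℝ | |q.2 - q.1| ≤ ε / 2} :=
    measurableSet_le habs measurable_const
  have m1 : MeasurableSet {q : ℝ × ℝ | ε / 2 < |q.2 - q.1| ∧ |q.2 - q.1| < R / 2} :=
    (measurableSet_lt measurable_const habs).inter (measurableSet_lt habs measurable_const)
  have m2 : MeasurableSet {q : ℝ × ℝ | R / 2 ≤ |q.2 - q.1|} :=
    measurableSet_le measurable_const habs
  have e : ∫ q, Ph ε R α₁ α₂ α₃ f₁ f₂ f₃ q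
      = (∫ q, {q : ℝ × ℝ | |q.2 - q.1| ≤ ε / 2}.indicator (Ph ε R α₁ α₂ α₃ f₁ f₂ f₃) q) +
        ((∫ q, {q : ℝ × ℝ | ε / 2 < |q.2 - q.1| ∧ |q.2 - q.1| < R / 2}.indicator
          (Ph ε R α₁ α₂ α₃ f₁ f₂ f₃) q) +
        ∫ q, {q : ℝ × ℝ | R / 2 ≤ |q.2 - q.1|}.indicator (Ph ε R α₁ α₂ α₃ f₁ f₂ f₃) q) := by
    have a1 := integral_add (hI.indicator m1) (hI.indicator m2)
    have a0 := integral_add (hI.indicator m0) ((hI.indicator m1).add (hI.indicator m2))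
    simp only [Pi.add_apply] at a0 a1
    rw [← a1, ← a0]
    exact integral_congr_ae (ae_of_all _ fun q => three ε R hR _ q)
  have p0 := part0 (α₁ := α₁) (α₂ := α₂) (α₃ := α₃) hε hR h₁ h₂ h₃
  have p1 := part1 (α₁ := α₁) (α₂ := α₂) (α₃ := α₃) hε hR h₁ h₂ h₃ hC0 hC
  have p2 := part2 (α₁ := α₁) (α₂ := α₂) (α₃ := α₃) hε hR h₁ h₂ h₃
  have hsq := TT_sq (R := R) (α₁ := α₁) (α₂ := α₂) (α₃ := α₃) hε h₁ h₂ h₃
  have hnn : 0 ≤ ∫ x, ‖TT ε R α₁ α₂ α₃ f₁ f₂ f₃ x‖ ^ 2 := integral_nonneg fun _ => by positivity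
  have h1 : ∫ x, ‖TT ε R α₁ α₂ α₃ f₁ f₂ f₃ x‖ ^ 2
      = ‖∫ q, Ph ε R α₁ α₂ α₃ f₁ f₂ f₃ q‖ := by
    rw [← hsq, Complex.norm_real, Real.norm_of_nonneg hnn]
  rw [h1, e]
  refine (norm_add_le _ _).trans ?_
  have h2 := norm_add_le (∫ q, {q : ℝ × ℝ | ε / 2 < |q.2 - q.1| ∧ |q.2 - q.1| < R / 2}.indicator
          (Ph ε R α₁ α₂ α₃ f₁ f₂ f₃) q)
        (∫ q, {q : ℝ × ℝ | R / 2 ≤ |q.2 - q.1|}.indicator (Ph ε R α₁ α₂ α₃ f₁ f₂ f₃) q)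
  linarith

/-- norm form -/
theorem main_norm :
    ∃ C : ℝ, 0 ≤ C ∧ ∀ α₁ α₂ α₃ : ℝ, ∀ f₁ f₂ f₃ : ℝ → ℂ, Nice f₁ → Nice f₂ → Nice f₃ →
      ∀ ε R : ℝ, 0 < ε → ε < R →
        eLpNorm (TT ε R α₁ α₂ α₃ f₁ f₂ f₃) 2 volume ≤
          ENNReal.ofReal (C * √(Real.log (R / ε))) * eLpNorm f₁ 6 volume *
            eLpNorm f₂ 6 volume * eLpNorm f₃ 6 volume := by
  obtain ⟨C, hC0, hC'⟩ := main
  refine ⟨√C, Real.sqrt_nonneg _, fun α₁ α₂ α₃ f₁ f₂ f₃ h₁ h₂ h₃ ε R hε hR => ?_⟩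
  have hb := hC' α₁ α₂ α₃ f₁ f₂ f₃ h₁ h₂ h₃ ε R hε hR
  have hL : 0 ≤ Real.log (R / ε) := Real.log_nonneg ((one_le_div hε).2 hR.le)
  have n1 := (h₁.memLp (p := 6) (by norm_num) (by norm_num)).2.ne
  have n2 := (h₂.memLp (p := 6) (by norm_num) (by norm_num)).2.ne
  have n3 := (h₃.memLp (p := 6) (by norm_num) (by norm_num)).2.ne
  have hi := TT_sq_int (R := R) (α₁ := α₁) (α₂ := α₂) (α₃ := α₃) hε h₁ h₂ h₃
  have hm := TT_meas (ε := ε) (R := R) (α₁ := α₁) (α₂ := α₂) (α₃ := α₃) h₁ h₂ h₃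
  have h2 : eLpNorm (TT ε R α₁ α₂ α₃ f₁ f₂ f₃) 2 volume
      = ENNReal.ofReal (√(∫ x, ‖TT ε R α₁ α₂ α₃ f₁ f₂ f₃ x‖ ^ 2)) := by
    rw [eLpNorm_eq_lintegral_rpow_enorm_toReal (by norm_num) (by norm_num)]
    have e1 : (2 : ℝ≥0∞).toReal = 2 := by norm_num
    rw [e1, Real.sqrt_eq_rpow, ← ENNReal.ofReal_rpow_of_nonneg
      (integral_nonneg fun _ => by positivity) (by norm_num),
      ofReal_integral_eq_lintegral_ofReal hi (ae_of_all _ fun _ => by positivity)]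
    congr 2
    funext x
    rw [ENNReal.rpow_two, ← ofReal_norm, ENNReal.ofReal_pow (norm_nonneg _)]
  rw [h2]
  have h3 : √(∫ x, ‖TT ε R α₁ α₂ α₃ f₁ f₂ f₃ x‖ ^ 2) ≤ √C * √(Real.log (R / ε)) *
      (eLpNorm f₁ 6 volume).toReal * (eLpNorm f₂ 6 volume).toReal *
      (eLpNorm f₃ 6 volume).toReal := by
    refine (Real.sqrt_le_sqrt hb).trans (le_of_eq ?_)
    unfold PP
    rw [Real.sqrt_mul (by positivity), Real.sqrt_mul hC0, Real.sqrt_sq (by positivity)]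
    ring
  refine (ENNReal.ofReal_le_ofReal h3).trans (le_of_eq ?_)
  rw [ENNReal.ofReal_mul (by positivity), ENNReal.ofReal_mul (by positivity),
    ENNReal.ofReal_mul (by positivity), ENNReal.ofReal_toReal n1, ENNReal.ofReal_toReal n2,
    ENNReal.ofReal_toReal n3]

/-- one corner, arbitrary slopes, one constant -/
theorem corner :
    ∃ C : ℝ, 0 ≤ C ∧ ∀ b₁ b₂ b₃ : ℝ, ∀ f₀ f₁ f₂ f₃ : ℝ → ℂ, Nice f₀ → Nice f₁ → Nice f₂ →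
      Nice f₃ → ∀ ε R : ℝ, 0 < ε → ε < R →
        ‖Q4 ε R 0 b₁ b₂ b₃ f₀ f₁ f₂ f₃‖ₑ ≤
          ENNReal.ofReal (C * √(Real.log (R / ε))) * eLpNorm f₀ 2 volume *
            eLpNorm f₁ 6 volume * eLpNorm f₂ 6 volume * eLpNorm f₃ 6 volume := by
  obtain ⟨C, hC0, hC⟩ := main_norm
  refine ⟨C, hC0, fun b₁ b₂ b₃ f₀ f₁ f₂ f₃ h₀ h₁ h₂ h₃ ε R hε hR => ?_⟩
  have := holder221
  rw [Q4_pair hε h₀ h₁ h₂ h₃]
  have hm := TT_meas (ε := ε) (R := R) (α₁ := b₁) (α₂ := b₂) (α₃ := b₃) h₁ h₂ h₃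
  refine (enorm_integral_le_lintegral_enorm _).trans ?_
  have h5 := eLpNorm_smul_le_mul_eLpNorm (p := 2) (q := 2) (r := 1) (μ := volume)
    (f := TT ε R b₁ b₂ b₃ f₁ f₂ f₃) (φ := f₀) hm.aestronglyMeasurable
    h₀.meas.aestronglyMeasurable
  rw [eLpNorm_one_eq_lintegral_enorm] at h5
  refine h5.trans ?_
  have h6 := hC b₁ b₂ b₃ f₁ f₂ f₃ h₁ h₂ h₃ ε R hε hR
  calc eLpNorm f₀ 2 volume * eLpNorm (TT ε R b₁ b₂ b₃ f₁ f₂ f₃) 2 volume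
      ≤ eLpNorm f₀ 2 volume * (ENNReal.ofReal (C * √(Real.log (R / ε))) *
        eLpNorm f₁ 6 volume * eLpNorm f₂ 6 volume * eLpNorm f₃ 6 volume) := by gcongr
    _ = _ := by ring

/-- the four corners -/
theorem corners : ∃ C : ℝ, 0 ≤ C ∧ ∀ b : Fin 4 → ℝ, ∀ ε R : ℝ, 0 < ε → ε < R → ∀ j : Fin 4,
    ∀ f : Fin 4 → ℝ → ℂ, (∀ i, Simp (f i)) →
      ‖QF ε R b f‖ ≤ C * √(Real.log (R / ε)) * ∏ i, (NN (f i) (1 / ee j i)) ^ (ee j i) := by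
  obtain ⟨C, hC, H⟩ := corner
  refine ⟨C, hC, fun b ε R hε hR j f hf => ?_⟩
  have hL := Real.sqrt_nonneg (Real.log (R / ε))
  have n := fun i => (hf i).nice
  have hQ : QF ε R b f = Q4 ε R (b 0) (b 1) (b 2) (b 3) (f 0) (f 1) (f 2) (f 3) := QF_eq _ _ _ _
  have fin : ∀ {P Q : ℝ}, P = Q →
      ‖QF ε R b f‖ ≤ C * √(Real.log (R / ε)) * P →
      ‖QF ε R b f‖ ≤ C * √(Real.log (R / ε)) * Q := by
    intro P Q hPQ h
    rwa [← hPQ]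
  obtain rfl | rfl | rfl | rfl : j = 0 ∨ j = 1 ∨ j = 2 ∨ j = 3 := by fin_cases j <;> simp
  · have e : QF ε R b f = Q4 ε R 0 (b 1 - b 0) (b 2 - b 0) (b 3 - b 0) (f 0) (f 1) (f 2) (f 3) := by
      rw [hQ, Q4_shift (b 0), sub_self]
    refine fin ?_ ((e ▸ conv_corner (by positivity) (n 0) (n 1) (n 2) (n 3)
      (H _ _ _ _ _ _ _ (n 0) (n 1) (n 2) (n 3) ε R hε hR)))
    rw [Fin.prod_univ_four, ee_self, ee_ne (j := 0) (i := 1) (by decide),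
      ee_ne (j := 0) (i := 2) (by decide), ee_ne (j := 0) (i := 3) (by decide), inv2, inv6]
    ring
  · have e : QF ε R b f = Q4 ε R 0 (b 0 - b 1) (b 2 - b 1) (b 3 - b 1) (f 1) (f 0) (f 2) (f 3) := by
      rw [hQ, Q4_01, Q4_shift (b 1), sub_self]
    refine fin ?_ ((e ▸ conv_corner (by positivity) (n 1) (n 0) (n 2) (n 3)
      (H _ _ _ _ _ _ _ (n 1) (n 0) (n 2) (n 3) ε R hε hR)))
    rw [Fin.prod_univ_four, ee_self, ee_ne (j := 1) (i := 0) (by decide),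
      ee_ne (j := 1) (i := 2) (by decide), ee_ne (j := 1) (i := 3) (by decide), inv2, inv6]
    ring
  · have e : QF ε R b f = Q4 ε R 0 (b 1 - b 2) (b 0 - b 2) (b 3 - b 2) (f 2) (f 1) (f 0) (f 3) := by
      rw [hQ, Q4_02, Q4_shift (b 2), sub_self]
    refine fin ?_ ((e ▸ conv_corner (by positivity) (n 2) (n 1) (n 0) (n 3)
      (H _ _ _ _ _ _ _ (n 2) (n 1) (n 0) (n 3) ε R hε hR)))
    rw [Fin.prod_univ_four, ee_self, ee_ne (j := 2) (i := 0) (by decide),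
      ee_ne (j := 2) (i := 1) (by decide), ee_ne (j := 2) (i := 3) (by decide), inv2, inv6]
    ring
  · have e : QF ε R b f = Q4 ε R 0 (b 1 - b 3) (b 2 - b 3) (b 0 - b 3) (f 3) (f 1) (f 2) (f 0) := by
      rw [hQ, Q4_03, Q4_shift (b 3), sub_self]
    refine fin ?_ ((e ▸ conv_corner (by positivity) (n 3) (n 1) (n 2) (n 0)
      (H _ _ _ _ _ _ _ (n 3) (n 1) (n 2) (n 0) ε R hε hR)))
    rw [Fin.prod_univ_four, ee_self, ee_ne (j := 3) (i := 0) (by decide),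
      ee_ne (j := 3) (i := 1) (by decide), ee_ne (j := 3) (i := 2) (by decide), inv2, inv6]
    ring

/-- all exponents of the simplex, all slopes -/
theorem simplex : ∃ C : ℝ, 0 ≤ C ∧ ∀ b : Fin 4 → ℝ, ∀ ε R : ℝ, 0 < ε → ε < R →
    ∀ d : Fin 4 → ℝ, (∀ i, 1 / 6 ≤ d i) → ∑ i, d i = 1 → ∀ f : Fin 4 → ℝ → ℂ,
      (∀ i, Simp (f i)) →
      ‖QF ε R b f‖ ≤ C * √(Real.log (R / ε)) * ∏ i, (NN (f i) (1 / d i)) ^ (d i) := by
  obtain ⟨C, hC0, hC⟩ := corners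
  refine ⟨C, hC0, fun b ε R hε hR d hd hs => ?_⟩
  have hA : 0 ≤ C * √(Real.log (R / ε)) := by positivity
  set S : Set (Fin 4 → ℝ) := {a | (∀ i, 0 < a i) ∧ ∀ f : Fin 4 → ℝ → ℂ, (∀ i, Simp (f i)) →
      ‖QF ε R b f‖ ≤ C * √(Real.log (R / ε)) * ∏ i, (NN (f i) (1 / a i)) ^ (a i)} with hS
  have hconv : Convex ℝ S := by
    intro x hx y hy s t hs' ht hst
    refine ⟨fun i => ?_, ?_⟩
    · have h1 := hx.1 i
      have h2 := hy.1 i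
      simp only [Pi.add_apply, Pi.smul_apply, smul_eq_mul]
      rcases eq_or_lt_of_le ht with h | h
      · have : s = 1 := by linarith
        rw [← h, this]; linarith
      · have h3 := mul_pos h h2
        have h4 := mul_nonneg hs' h1.le
        linarith
    · exact interp hε hA hx.1 hy.1 ht (by linarith) hx.2 hy.2 (fun i => by
        simp only [Pi.add_apply, Pi.smul_apply, smul_eq_mul]
        rw [← hst]; ring)
  have hmem : ∀ j ∈ (Finset.univ : Finset (Fin 4)), ee j ∈ S := fun j _ =>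
    ⟨ee_pos j, hC b ε R hε hR j⟩
  have hw : ∑ j : Fin 4, 3 * (d j - 1 / 6) = 1 := by
    rw [Fin.sum_univ_four] at hs ⊢; linarith
  have key := hconv.sum_mem (t := Finset.univ) (w := fun j => 3 * (d j - 1 / 6))
    (z := ee) (fun j _ => by have := hd j; linarith) hw hmem
  have e : ∑ j : Fin 4, (3 * (d j - 1 / 6)) • ee j = d := by
    rw [Fin.sum_univ_four] at hs ⊢
    funext i
    simp only [Pi.add_apply, Pi.smul_apply, smul_eq_mul, ee]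
    fin_cases i <;> simp <;> linarith
  rw [e] at key
  exact key.2

/-- the operator bound, with the exponents `1/d i`, all slopes -/
theorem op_simp : ∃ C : ℝ, 0 ≤ C ∧ ∀ α₁ α₂ α₃ : ℝ, ∀ ε R : ℝ, 0 < ε → ε < R →
    ∀ d : Fin 4 → ℝ, (∀ i, 1 / 6 ≤ d i) → ∑ i, d i = 1 → ∀ f₁ f₂ f₃ : ℝ → ℂ,
      Simp f₁ → Simp f₂ → Simp f₃ →
      eLpNorm (TT ε R α₁ α₂ α₃ f₁ f₂ f₃) (ENNReal.ofReal (1 / (1 - d 0))) volume ≤
        ENNReal.ofReal (C * √(Real.log (R / ε)) * ((NN f₁ (1 / d 1)) ^ (d 1) *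
          (NN f₂ (1 / d 2)) ^ (d 2) * (NN f₃ (1 / d 3)) ^ (d 3))) := by
  obtain ⟨C, hC0, hC⟩ := simplex
  refine ⟨C, hC0, fun α₁ α₂ α₃ ε R hε hR d hd hs f₁ f₂ f₃ h₁ h₂ h₃ => ?_⟩
  have hs' := hs
  rw [Fin.sum_univ_four] at hs'
  have d0 := hd 0
  have d1 := hd 1
  have d2 := hd 2
  have d3 := hd 3
  obtain ⟨B, hB⟩ := TT_bdd (R := R) (α₁ := α₁) (α₂ := α₂) (α₃ := α₃) hε h₁.nice h₂.nice h₃.nice
  have n1 := NN_nonneg f₁ (1 / d 1)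
  have n2 := NN_nonneg f₂ (1 / d 2)
  have n3 := NN_nonneg f₃ (1 / d 3)
  refine dual (by linarith) (by linarith) (TT_meas h₁.nice h₂.nice h₃.nice) hB
    (by positivity) fun f₀ h₀ => ?_
  have h := hC ![0, α₁, α₂, α₃] ε R hε hR d hd hs ![f₀, f₁, f₂, f₃] (fun i => by
    fin_cases i
    · exact h₀
    · exact h₁
    · exact h₂
    · exact h₃)
  have e1 : QF ε R ![0, α₁, α₂, α₃] ![f₀, f₁, f₂, f₃]
      = ∫ x, f₀ x * TT ε R α₁ α₂ α₃ f₁ f₂ f₃ x := by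
    rw [QF_eq]
    exact Q4_pair hε h₀.nice h₁.nice h₂.nice h₃.nice
  rw [e1, Fin.prod_univ_four] at h
  refine h.trans (le_of_eq ?_)
  show C * √(Real.log (R / ε)) * ((NN f₀ (1 / d 0)) ^ (d 0) * (NN f₁ (1 / d 1)) ^ (d 1) *
    (NN f₂ (1 / d 2)) ^ (d 2) * (NN f₃ (1 / d 3)) ^ (d 3)) = _
  ring

/-- **the bound at all tuples of the simplex, uniformly in all slopes** -/
theorem op_nice : ∃ C : ℝ, 0 ≤ C ∧ ∀ α₁ α₂ α₃ : ℝ, ∀ p₁ p₂ p₃ r : ℝ≥0∞,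
    p₁ ≤ 6 → p₂ ≤ 6 → p₃ ≤ 6 → 6 / 5 ≤ r →
    r⁻¹ = p₁⁻¹ + p₂⁻¹ + p₃⁻¹ → ∀ f₁ f₂ f₃ : ℝ → ℂ, Nice f₁ → Nice f₂ → Nice f₃ →
    ∀ ε R : ℝ, 0 < ε → ε < R →
      eLpNorm (TT ε R α₁ α₂ α₃ f₁ f₂ f₃) r volume ≤
        ENNReal.ofReal (C * √(Real.log (R / ε))) * eLpNorm f₁ p₁ volume *
          eLpNorm f₂ p₂ volume * eLpNorm f₃ p₃ volume := by
  obtain ⟨C, hC0, hC⟩ := op_simp
  refine ⟨C, hC0, fun α₁ α₂ α₃ p₁ p₂ p₃ r h1 h2 h3 hr hsum f₁ f₂ f₃ k₁ k₂ k₃ ε R hε hR => ?_⟩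
  obtain ⟨⟨z1, z2, z3, hrt⟩, ⟨b1, b2, b3, b0⟩, hs⟩ := exps h1 h2 h3 hr hsum
  have t1 : p₁ ≠ ∞ := ne_top_of_le_ne_top (by norm_num) h1
  have t2 : p₂ ≠ ∞ := ne_top_of_le_ne_top (by norm_num) h2
  have t3 : p₃ ≠ ∞ := ne_top_of_le_ne_top (by norm_num) h3
  have one_le : ∀ {p : ℝ≥0∞}, p ≠ ∞ → 1 / 6 ≤ p.toReal⁻¹ → p.toReal⁻¹ ≤ 1 → 1 ≤ p := by
    intro p hp h6 hle
    have hpos : 0 < p.toReal := inv_pos.1 (by linarith)
    have h12 : 1 ≤ p.toReal := by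
      have := inv_anti₀ (by linarith : (0:ℝ) < p.toReal⁻¹) hle
      simpa using this
    rw [← ENNReal.ofReal_toReal hp, ← ENNReal.ofReal_one]
    exact ENNReal.ofReal_le_ofReal h12
  have o1 : 1 ≤ p₁ := one_le t1 b1 (by linarith)
  have o2 : 1 ≤ p₂ := one_le t2 b2 (by linarith)
  have o3 : 1 ≤ p₃ := one_le t3 b3 (by linarith)
  set d : Fin 4 → ℝ := ![1 - r.toReal⁻¹, p₁.toReal⁻¹, p₂.toReal⁻¹, p₃.toReal⁻¹] with hd
  have e0 : d 0 = 1 - r.toReal⁻¹ := rfl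
  have e1 : d 1 = p₁.toReal⁻¹ := rfl
  have e2 : d 2 = p₂.toReal⁻¹ := rfl
  have e3 : d 3 = p₃.toReal⁻¹ := rfl
  have hd6 : ∀ i, 1 / 6 ≤ d i := by
    intro i
    fin_cases i
    · show 1 / 6 ≤ 1 - r.toReal⁻¹
      linarith
    · exact b1
    · exact b2
    · exact b3
  have hd1 : ∑ i, d i = 1 := by
    rw [Fin.sum_univ_four, e0, e1, e2, e3]; linarith
  have hrr : ENNReal.ofReal (1 / (1 - d 0)) = r := by
    rw [e0, sub_sub_cancel, one_div, inv_inv, ENNReal.ofReal_toReal hrt]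
  have hlim : ∀ᵐ x : ℝ, Tendsto
      (fun n => TT ε R α₁ α₂ α₃ (cut n f₁) (cut n f₂) (cut n f₃) x) atTop
      (𝓝 (TT ε R α₁ α₂ α₃ f₁ f₂ f₃ x)) := ae_of_all _ fun x => TT_cut hε k₁ k₂ k₃ x
  obtain ⟨B₁, hB₁⟩ := k₁.bdd
  obtain ⟨B₂, hB₂⟩ := k₂.bdd
  obtain ⟨B₃, hB₃⟩ := k₃.bdd
  have c1 := fun n => cut_simp n k₁.meas hB₁
  have c2 := fun n => cut_simp n k₂.meas hB₂
  have c3 := fun n => cut_simp n k₃.meas hB₃
  refine (Lp.eLpNorm_lim_le_liminf_eLpNorm (fun n => (TT_meas (c1 n).nice (c2 n).nice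
    (c3 n).nice).aestronglyMeasurable) _ hlim).trans ?_
  refine liminf_le_of_le (by isBoundedDefault) fun b hb => ?_
  obtain ⟨n, hn⟩ := hb.exists
  refine hn.trans ?_
  have h := hC α₁ α₂ α₃ ε R hε hR d hd6 hd1 _ _ _ (c1 n) (c2 n) (c3 n)
  rw [hrr] at h
  refine h.trans ?_
  have hK : 0 ≤ C * √(Real.log (R / ε)) := by positivity
  have conv : ∀ {p : ℝ≥0∞} {f : ℝ → ℂ}, 1 ≤ p → p ≠ ∞ → Nice (cut n f) →
      ENNReal.ofReal ((NN (cut n f) (1 / p.toReal⁻¹)) ^ p.toReal⁻¹) ≤ eLpNorm f p volume := by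
    intro p f hp1 hpt hf
    rw [one_div, inv_inv, ← elp_NN (hf.memLp hp1 hpt) hp1 hpt]
    exact eLpNorm_mono fun x => cut_norm_le n f x
  have v1 := conv o1 t1 (c1 n).nice
  have v2 := conv o2 t2 (c2 n).nice
  have v3 := conv o3 t3 (c3 n).nice
  rw [← e1] at v1
  rw [← e2] at v2
  rw [← e3] at v3
  have x1 : 0 ≤ (NN (cut n f₁) (1 / d 1)) ^ (d 1) := Real.rpow_nonneg (NN_nonneg _ _) _
  have x2 : 0 ≤ (NN (cut n f₂) (1 / d 2)) ^ (d 2) := Real.rpow_nonneg (NN_nonneg _ _) _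
  calc ENNReal.ofReal (C * √(Real.log (R / ε)) * ((NN (cut n f₁) (1 / d 1)) ^ (d 1) *
          (NN (cut n f₂) (1 / d 2)) ^ (d 2) * (NN (cut n f₃) (1 / d 3)) ^ (d 3)))
      = ENNReal.ofReal (C * √(Real.log (R / ε))) * (ENNReal.ofReal
          ((NN (cut n f₁) (1 / d 1)) ^ (d 1)) * ENNReal.ofReal ((NN (cut n f₂) (1 / d 2)) ^ (d 2)) *
          ENNReal.ofReal ((NN (cut n f₃) (1 / d 3)) ^ (d 3))) := by
        rw [ENNReal.ofReal_mul hK, ENNReal.ofReal_mul (mul_nonneg x1 x2), ENNReal.ofReal_mul x1]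
    _ ≤ ENNReal.ofReal (C * √(Real.log (R / ε))) * (eLpNorm f₁ p₁ volume *
          eLpNorm f₂ p₂ volume * eLpNorm f₃ p₃ volume) := by gcongr
    _ = _ := by ring

/-- the operator as an integral over `ε < |t| < R` -/
theorem TT_eq_slopes (ε R α₁ α₂ α₃ : ℝ) (f₁ f₂ f₃ : ℝ → ℂ) (x : ℝ) :
    TT ε R α₁ α₂ α₃ f₁ f₂ f₃ x = ∫ t in {t : ℝ | ε < |t| ∧ |t| < R},
      f₁ (x - α₁ * t) * f₂ (x - α₂ * t) * f₃ (x - α₃ * t) / (t : ℂ) := by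
  unfold TT ph FF uu
  rw [← integral_indicator (setA_meas ε R)]
  congr 1
  funext t
  by_cases ht : t ∈ {t : ℝ | ε < |t| ∧ |t| < R}
  · rw [indicator_of_mem ht, indicator_of_mem ht, div_eq_mul_inv, mul_comm]
  · rw [indicator_of_notMem ht, indicator_of_notMem ht, zero_mul]

end Vale.Agent.P141.H115
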