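import Vale.Agent.P141.H115.Large
import Vale.Agent.P141.Bdl.B1

/-!
# The trilinear Hilbert transform when one function is regular
-/

namespace Vale.Agent.P141.H115

open MeasureTheory Set Filter Topology
open scoped ENNReal ComplexConjugate SchwartzMap
open Vale.Agent.P141.H97

section

variable {ε δ l R α₁ α₂ α₃ : ℝ} {f₁ f₂ f₃ : ℝ → ℂ}

theorem ph_int_t (hε : 0 < ε) (h₁ : Nice f₁) (h₂ : Nice f₂) (h₃ : Nice f₃) (x : ℝ) :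
    Integrable (fun t => ph ε R α₁ α₂ α₃ f₁ f₂ f₃ x t) volume := by
  obtain ⟨B₁, hB₁⟩ := h₁.bdd
  obtain ⟨B₂, hB₂⟩ := h₂.bdd
  obtain ⟨B₃, hB₃⟩ := h₃.bdd
  have hB₁0 : 0 ≤ B₁ := (norm_nonneg _).trans (hB₁ 0)
  have hB₂0 : 0 ≤ B₂ := (norm_nonneg _).trans (hB₂ 0)
  have hB₃0 : 0 ≤ B₃ := (norm_nonneg _).trans (hB₃ 0)
  have hm : Measurable fun t => ph ε R α₁ α₂ α₃ f₁ f₂ f₃ x t :=
    (ph_meas (ε := ε) (R := R) (α₁ := α₁) (α₂ := α₂) (α₃ := α₃) h₁.meas h₂.meas h₃.meas).comp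
      (measurable_const.prodMk measurable_id)
  refine ((av_int (b := R) hε).mul_const (B₁ * B₂ * B₃)).mono' hm.aestronglyMeasurable
    (ae_of_all _ fun t => ?_)
  unfold ph FF
  rw [norm_mul, uu_norm, norm_mul, norm_mul]
  have a1 := av_nonneg ε R t
  have c1 := hB₁ (x - α₁ * t)
  have c2 := hB₂ (x - α₂ * t)
  have c3 := hB₃ (x - α₃ * t)
  gcongr

theorem uu_split (h1 : ε < δ) (h3 : δ < R) {t : ℝ} (ht : |t| ≠ δ) :
    uu ε R t = uu ε δ t + uu δ R t := by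
  unfold uu
  rcases lt_or_gt_of_ne ht with h | h
  · have n2 : t ∉ {t : ℝ | δ < |t| ∧ |t| < R} := fun c => absurd c.1 (not_lt.2 h.le)
    rw [indicator_of_notMem n2, add_zero]
    by_cases h5 : ε < |t|
    · rw [indicator_of_mem (show t ∈ {t : ℝ | ε < |t| ∧ |t| < R} from ⟨h5, h.trans h3⟩),
        indicator_of_mem (show t ∈ {t : ℝ | ε < |t| ∧ |t| < δ} from ⟨h5, h⟩)]
    · rw [indicator_of_notMem (fun c => h5 c.1), indicator_of_notMem (fun c => h5 c.1)]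
  · have n2 : t ∉ {t : ℝ | ε < |t| ∧ |t| < δ} := fun c => absurd c.2 (not_lt.2 h.le)
    rw [indicator_of_notMem n2, zero_add]
    by_cases h5 : |t| < R
    · rw [indicator_of_mem (show t ∈ {t : ℝ | ε < |t| ∧ |t| < R} from ⟨h1.trans h, h5⟩),
        indicator_of_mem (show t ∈ {t : ℝ | δ < |t| ∧ |t| < R} from ⟨h, h5⟩)]
    · rw [indicator_of_notMem (fun c => h5 c.2), indicator_of_notMem (fun c => h5 c.2)]

theorem TT_split (hε : 0 < ε) (h1 : ε < δ) (h3 : δ < R) (h₁ : Nice f₁) (h₂ : Nice f₂)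
    (h₃ : Nice f₃) (x : ℝ) : TT ε R α₁ α₂ α₃ f₁ f₂ f₃ x =
      TT ε δ α₁ α₂ α₃ f₁ f₂ f₃ x + TT δ R α₁ α₂ α₃ f₁ f₂ f₃ x := by
  unfold TT
  rw [← integral_add (ph_int_t hε h₁ h₂ h₃ x) (ph_int_t (hε.trans h1) h₁ h₂ h₃ x)]
  apply integral_congr_ae
  have hδ : 0 < δ := hε.trans h1
  have n1 : ∀ᵐ t : ℝ, t ≠ δ := by simp [ae_iff]
  have n2 : ∀ᵐ t : ℝ, t ≠ -δ := by simp [ae_iff]
  filter_upwards [n1, n2] with t ht1 ht2
  have ht : |t| ≠ δ := by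
    intro h
    rcases (abs_eq hδ.le).1 h with h | h
    · exact ht1 h
    · exact ht2 h
  unfold ph
  rw [uu_split h1 h3 ht]
  ring

end

theorem inv_sum : (6 / 5 : ℝ≥0∞)⁻¹ = 3⁻¹ + 3⁻¹ + 6⁻¹ := by
  have h3 : (3 : ℝ≥0∞)⁻¹ ≠ ∞ := ENNReal.inv_ne_top.2 (by norm_num)
  have h6 : (6 : ℝ≥0∞)⁻¹ ≠ ∞ := ENNReal.inv_ne_top.2 (by norm_num)
  have h65 : (6 / 5 : ℝ≥0∞)⁻¹ ≠ ∞ := by
    apply ENNReal.inv_ne_top.2
    exact (ENNReal.div_pos (by norm_num) (by norm_num)).ne'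
  rw [← ENNReal.toReal_eq_toReal_iff' h65 (by
    exact ENNReal.add_ne_top.2 ⟨ENNReal.add_ne_top.2 ⟨h3, h3⟩, h6⟩),
    ENNReal.toReal_add (ENNReal.add_ne_top.2 ⟨h3, h3⟩) h6, ENNReal.toReal_add h3 h3]
  simp only [ENNReal.toReal_inv, ENNReal.toReal_div]
  norm_num

/-- all scales together -/
theorem whole {α₁ α₂ α₃ : ℝ} (h30 : α₃ ≠ 0) (h31 : α₃ - α₁ ≠ 0) (h32 : α₃ - α₂ ≠ 0) :
    ∃ C : ℝ, 0 ≤ C ∧ ∀ f₁ f₂ f₃ : ℝ → ℂ, Nice f₁ → Nice f₂ → Nice f₃ →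
      ∀ a l N : ℝ, 0 < l → 2 ≤ N → (∀ x, x ∉ Icc a (a + l) → f₃ x = 0) →
      (∀ s, eLpNorm (fun x => f₃ (x - s) - f₃ x) 6 volume ≤
        ENNReal.ofReal (N / l * |s|) * eLpNorm f₃ 6 volume) →
      ∀ ε R : ℝ, 0 < ε → ε < l / N → l < R →
      eLpNorm (TT ε R α₁ α₂ α₃ f₁ f₂ f₃) (6 / 5) volume ≤
        ENNReal.ofReal (C * √(Real.log N)) * (eLpNorm f₁ 3 volume *
          eLpNorm f₂ 3 volume * eLpNorm f₃ 6 volume) := by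
  obtain ⟨C₁, hC₁, H₁⟩ := small
  obtain ⟨C₂, hC₂, H₂⟩ := op_nice
  obtain ⟨C₃, hC₃, H₃⟩ := large h30 h31 h32
  have hlog2 : 0 < Real.log 2 := Real.log_pos (by norm_num)
  set c : ℝ := 1 / √(Real.log 2) with hc
  have hc0 : 0 < c := by positivity
  refine ⟨(C₁ + 2 * |α₃| + C₃) * c + C₂, by positivity, ?_⟩
  intro f₁ f₂ f₃ h₁ h₂ h₃ a l N hl hN hs hreg ε R hε hεδ hR
  have hN0 : 0 < N := by linarith
  set δ : ℝ := l / N with hδ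
  have hδ0 : 0 < δ := by positivity
  have hδl : δ < l := by
    rw [hδ, div_lt_iff₀ hN0]; nlinarith
  have hlN : Real.log 2 ≤ Real.log N := Real.log_le_log (by norm_num) hN
  have hcN : 1 ≤ c * √(Real.log N) := by
    rw [hc, one_div_mul_eq_div, one_le_div (by positivity)]
    exact Real.sqrt_le_sqrt hlN
  have b1 := H₁ α₁ α₂ α₃ f₁ f₂ f₃ h₁ h₂ h₃ (N / l) (by positivity) hreg ε δ hε hεδ
  have b2 := H₂ α₁ α₂ α₃ 3 3 6 (6 / 5) (by norm_num) (by norm_num) le_rfl le_rfl inv_sum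
    f₁ f₂ f₃ h₁ h₂ h₃ δ l hδ0 hδl
  have b3 := H₃ f₁ f₂ f₃ h₁ h₂ h₃ a l R hl hs
  have hsplit : TT ε R α₁ α₂ α₃ f₁ f₂ f₃ = fun x => TT ε δ α₁ α₂ α₃ f₁ f₂ f₃ x +
      (TT δ l α₁ α₂ α₃ f₁ f₂ f₃ x + TT l R α₁ α₂ α₃ f₁ f₂ f₃ x) := by
    funext x
    rw [TT_split hε hεδ (hδl.trans hR) h₁ h₂ h₃ x, TT_split hδ0 hδl hR h₁ h₂ h₃ x]
  have m1 := (TT_meas (ε := ε) (R := δ) (α₁ := α₁) (α₂ := α₂) (α₃ := α₃) h₁ h₂
    h₃).aestronglyMeasurable (μ := (volume : Measure ℝ))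
  have m2 := (TT_meas (ε := δ) (R := l) (α₁ := α₁) (α₂ := α₂) (α₃ := α₃) h₁ h₂
    h₃).aestronglyMeasurable (μ := (volume : Measure ℝ))
  have m3 := (TT_meas (ε := l) (R := R) (α₁ := α₁) (α₂ := α₂) (α₃ := α₃) h₁ h₂
    h₃).aestronglyMeasurable (μ := (volume : Measure ℝ))
  have h1r : (1 : ℝ≥0∞) ≤ 6 / 5 := by
    rw [ENNReal.le_div_iff_mul_le (by norm_num) (by norm_num)]; norm_num
  set P := eLpNorm f₁ 3 volume * eLpNorm f₂ 3 volume * eLpNorm f₃ 6 volume with hP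
  have e1 : C₁ + 2 * δ * (N / l * |α₃|) = C₁ + 2 * |α₃| := by
    rw [hδ]; field_simp
  have e2 : Real.log (l / δ) = Real.log N := by
    congr 1; rw [hδ]; field_simp
  rw [e1] at b1
  rw [e2] at b2
  rw [hsplit]
  have t1 : eLpNorm (fun x => TT ε δ α₁ α₂ α₃ f₁ f₂ f₃ x +
      (TT δ l α₁ α₂ α₃ f₁ f₂ f₃ x + TT l R α₁ α₂ α₃ f₁ f₂ f₃ x)) (6 / 5) volume ≤
      ENNReal.ofReal (C₁ + 2 * |α₃|) * P + (ENNReal.ofReal (C₂ * √(Real.log N)) * P +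
        ENNReal.ofReal C₃ * P) := by
    refine (eLpNorm_add_le m1 (m2.add m3) h1r).trans (add_le_add b1 ?_)
    refine (eLpNorm_add_le m2 m3 h1r).trans (add_le_add (b2.trans (le_of_eq ?_)) b3)
    rw [hP]; ring
  refine t1.trans ?_
  rw [← add_mul, ← add_mul, ← ENNReal.ofReal_add (by positivity) (by positivity),
    ← ENNReal.ofReal_add (by positivity) (by positivity)]
  apply mul_le_mul_left
  apply ENNReal.ofReal_le_ofReal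
  have hS : 0 ≤ C₁ + 2 * |α₃| + C₃ := by positivity
  nlinarith [mul_le_mul_of_nonneg_left hcN hS]

end Vale.Agent.P141.H115
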